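import Vale.Agent.P247.H558.BetaQ

/-!
# The estimate of `β`: assembly of `BETA_statement`
-/

open scoped ContDiff Topology
open Set MeasureTheory Filter Metric

noncomputable section

namespace Vale.Agent.P247.H558

open Vale.Agent.P247.H74 Vale.Agent.P247.H574 Vale.Agent.P247.H647

lemma cov_add_fun {E : Type*} [NormedAddCommGroup E] [NormedSpace ℂ E] (A : R4 → R4 →L[ℝ] ℝ)
    {s t : R4 → E} {x : R4} (hs : DifferentiableAt ℝ s x) (ht : DifferentiableAt ℝ t x) (u : R4) :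
    cov A (fun y => s y + t y) x u = cov A s x u + cov A t x u := by
  have h : fderiv ℝ (fun y => s y + t y) x = fderiv ℝ s x + fderiv ℝ t x := fderiv_fun_add hs ht
  rw [cov, h, cov, cov, add_apply, smul_add]
  abel

variable {D : Data} {Q : Quat D} {M r : ℝ} {u : Fin 3 → ℝ}

lemma cov_ph (s : Sol Q M r u) (x : R4) (c : Fin 4) : cov s.a (ph s) x (Q.b c x) =
    cov s.a s.α x (Q.b c x) • s.fp x + s.α x • Ff s c x + cov s.a s.β x (Q.b c x) • s.fm x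
      + s.β x • Gf s c x := by
  have hα : DifferentiableAt ℝ s.α x := s.α_smooth.differentiable (by simp) x
  have hβ : DifferentiableAt ℝ s.β x := s.β_smooth.differentiable (by simp) x
  have hfp : DifferentiableAt ℝ s.fp x := s.fp_smooth.differentiable (by simp) x
  have hfm : DifferentiableAt ℝ s.fm x := s.fm_smooth.differentiable (by simp) x
  have h1 : cov s.a (ph s) x (Q.b c x) = cov s.a (fun y => s.α y • s.fp y + s.β y • s.fm y) x
    (Q.b c x) := rfl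
  rw [h1, cov_add_fun s.a (hα.fun_smul hfp) (hβ.fun_smul hfm), cov_csmul s.a hα hfp,
    cov_csmul s.a hβ hfm]
  simp only [Ff, Gf]
  abel

lemma cov_ch (s : Sol Q M r u) (x : R4) (c : Fin 4) : cov s.a (ch s) x (Q.b c x) =
    cov s.a s.β x (Q.b c x) • s.fm x + s.β x • Gf s c x := by
  have hβ : DifferentiableAt ℝ s.β x := s.β_smooth.differentiable (by simp) x
  have hfm : DifferentiableAt ℝ s.fm x := s.fm_smooth.differentiable (by simp) x
  have h1 : cov s.a (ch s) x (Q.b c x) = cov s.a (fun y => s.β y • s.fm y) x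
    (Q.b c x) := rfl
  rw [h1, cov_csmul s.a hβ hfm, Gf]

lemma cov_ph' (s : Sol Q M r u) (x : R4) (c : Fin 4) : cov s.a (ph' s) x (Q.b c x) =
    cov s.a s.α x (Q.b c x) • z1 s x + s.α x • fderiv ℝ (z1 s) x (Q.b c x) +
      (cov s.a s.β x (Q.b c x) • z2 s x + s.β x • fderiv ℝ (z2 s) x (Q.b c x)) := by
  have hα : DifferentiableAt ℝ s.α x := s.α_smooth.differentiable (by simp) x
  have hβ : DifferentiableAt ℝ s.β x := s.β_smooth.differentiable (by simp) x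
  have h1 : DifferentiableAt ℝ (z1 s) x := (z1_contDiff s).differentiable (by simp) x
  have h2 : DifferentiableAt ℝ (z2 s) x := (z2_contDiff s).differentiable (by simp) x
  have h3 : cov s.a (ph' s) x (Q.b c x) = cov s.a (fun y => s.α y • z1 s y + s.β y • z2 s y) x
    (Q.b c x) := rfl
  rw [h3, cov_add_fun s.a (hα.fun_smul h1) (hβ.fun_smul h2), cov_csmul s.a hα h1, cov_csmul s.a hβ h2]

/-- the integrand of the partial integration -/
def ib (s : Sol Q M r u) (x : R4) : ℂ :=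
  ∑ c, wf s c x * ((starRingEnd ℂ) (cov s.a s.α x (Q.b c x)) * s.β x +
    (starRingEnd ℂ) (s.α x) * cov s.a s.β x (Q.b c x)) +
  (∑ i, fderiv ℝ (Sf s i) x (e i)) * ((starRingEnd ℂ) (s.α x) * s.β x)

lemma rho_pos {u : V3} (hu : len u = 1) (Q : Quat D) (x : R4) : 0 < Q.rho u x := by
  obtain ⟨C, hC, h⟩ := rho_bounds Q
  have h1 := (h u x).1
  rw [hu] at h1
  by_contra h2
  push Not at h2
  nlinarith

/-- pointwise inequality -/
lemma pwB (hFR : FRM_statement) (s : Sol Q M r u) {K : ℝ} (hK1 : 1 ≤ K) {x : R4} (hb : CB s K x)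
    {B : Fin 4 → R4 → En} {δ : Fin 4 → R4 → ℝ} (hB : ∀ c, ‖B c x‖ ≤ K) (hδ : ∀ c, |δ c x| ≤ K) :
    (1 / 2) * Q.rho u x * ∑ c, ‖cov s.a s.β x (Q.b c x)‖ ^ 2 +
      (1 / 2) * r * Q.rho u x ^ 2 * ‖s.β x‖ ^ 2 -
      20 * K ^ 3 * (∑ c, ‖cov s.a s.α x (Q.b c x)‖ + ‖s.α x‖ + ∑ c, ‖cov s.a s.β x (Q.b c x)‖ +
        ‖s.β x‖) * ‖s.β x‖ ≤
    (J1 Q B s.a (ph s) (ch s) x).re + (J2 Q δ s.a (ph' s) (ch s) x).re - (ib s x).re := by
  have hK0 : 0 ≤ K := by linarith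
  have hρpos := rho_pos s.u_unit Q x
  have ho : (inner ℂ (s.fp x) (s.fm x) : ℂ) = 0 := orth hρpos.ne' (s.fp_eig x) (s.fm_eig x)
  set α := s.α x with hα
  set β := s.β x with hβ
  set n : Fin 4 → ℂ := fun c => cov s.a s.α x (Q.b c x) with hn
  set m : Fin 4 → ℂ := fun c => cov s.a s.β x (Q.b c x) with hm
  have A : ∀ c, (1 / 2) * Q.rho u x * ‖m c‖ ^ 2 - K ^ 2 * (2 * ‖n c‖ + ‖α‖ + ‖β‖) * ‖β‖ ≤
      (inner ℂ (n c • s.fp x + α • Ff s c x + m c • s.fm x + β • Gf s c x)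
        (m c • s.fm x + β • Gf s c x) : ℂ).re -
        (wf s c x * ((starRingEnd ℂ) (n c) * β + (starRingEnd ℂ) α * m c)).re := fun c =>
    partA hb.fp hb.fm (hb.F c) (hb.G c) (s.fm_norm x) ho
  have hFk : ∀ k, Q.Fh s.a x k = r * (Q.dv x u k - (1 / 2) * pv (α • s.fp x + β • s.fm x) k) +
      Q.dv x (s.κ x) k := fun k => Fh_eq hFR
        (φ := fun y => s.α y • s.fp y + s.β y • s.fm y) (s.curv x) k
  have Bb := partB (κ := Q.dv x (s.κ x)) s.r_pos.le hρpos.le hb.fp hb.fm hb.κ (s.fm_norm x) ho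
    (s.fp_eig x) (s.fm_eig x) hFk
  have C : ∀ c, -(K ^ 3 * (‖n c‖ + ‖α‖ + ‖m c‖ + ‖β‖) * ‖β‖) ≤
      (inner ℂ (B c x (n c • s.fp x + α • Ff s c x + m c • s.fm x + β • Gf s c x))
        (β • s.fm x) : ℂ).re := fun c => partC hb.fp hb.fm (hb.F c) (hb.G c) (hB c)
  have Dd : ∀ c, -((K ^ 2 * ‖n c‖ + K ^ 2 * ‖m c‖ + (K ^ 2 + K ^ 3) * (‖α‖ + ‖β‖)) * ‖β‖) ≤
      (inner ℂ (n c • z1 s x + α • fderiv ℝ (z1 s) x (Q.b c x) +
        (m c • z2 s x + β • fderiv ℝ (z2 s) x (Q.b c x)) + (δ c x : ℂ) • (α • z1 s x + β • z2 s x))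
        (sig c (β • s.fm x)) : ℂ).re := fun c =>
    partD c hb.fm hb.z1 hb.z2 (hb.y1 c) (hb.y2 c) (hδ c)
  have E : -(K * (‖α‖ * ‖β‖)) ≤
      (-((∑ i, fderiv ℝ (Sf s i) x (e i)) * ((starRingEnd ℂ) α * β))).re := by
    refine re_ge_neg ?_
    rw [norm_neg, norm_mul, norm_mul, RCLike.norm_conj]
    exact mul_le_mul_of_nonneg_right hb.dS (by positivity)
  have hJ1 : (J1 Q B s.a (ph s) (ch s) x).re =
      ∑ c, (inner ℂ (n c • s.fp x + α • Ff s c x + m c • s.fm x + β • Gf s c x)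
        (m c • s.fm x + β • Gf s c x) : ℂ).re +
      (-∑ k, (Q.Fh s.a x k : ℂ) * inner ℂ (pau k (α • s.fp x + β • s.fm x)) (β • s.fm x)).re +
      ∑ c, (inner ℂ (B c x (n c • s.fp x + α • Ff s c x + m c • s.fm x + β • Gf s c x))
        (β • s.fm x) : ℂ).re := by
    simp only [J1, cov_ph, cov_ch]
    rw [Complex.add_re, Complex.sub_re, Complex.neg_re, Complex.re_sum, Complex.re_sum,
      Complex.re_sum, Complex.re_sum]
    simp only [ph, ch]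
    ring
  have hJ2 : (J2 Q δ s.a (ph' s) (ch s) x).re =
      ∑ c, (inner ℂ (n c • z1 s x + α • fderiv ℝ (z1 s) x (Q.b c x) +
        (m c • z2 s x + β • fderiv ℝ (z2 s) x (Q.b c x)) + (δ c x : ℂ) • (α • z1 s x + β • z2 s x))
        (sig c (β • s.fm x)) : ℂ).re := by
    simp only [J2, cov_ph']
    rw [Complex.re_sum]
    simp only [ph', ch]
    rfl
  have hib : (ib s x).re = ∑ c, (wf s c x * ((starRingEnd ℂ) (n c) * β +
      (starRingEnd ℂ) α * m c)).re -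
        (-((∑ i, fderiv ℝ (Sf s i) x (e i)) * ((starRingEnd ℂ) α * β))).re := by
    rw [ib, Complex.add_re, Complex.re_sum, Complex.neg_re]
    ring
  rw [hJ1, hJ2, hib]
  have sA := Finset.sum_le_sum fun c (_ : c ∈ (Finset.univ : Finset (Fin 4))) => A c
  have sC := Finset.sum_le_sum fun c (_ : c ∈ (Finset.univ : Finset (Fin 4))) => C c
  have sD := Finset.sum_le_sum fun c (_ : c ∈ (Finset.univ : Finset (Fin 4))) => Dd c
  have tA : ∑ c, ((1 / 2) * Q.rho u x * ‖m c‖ ^ 2 - K ^ 2 * (2 * ‖n c‖ + ‖α‖ + ‖β‖) * ‖β‖) =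
      (1 / 2) * Q.rho u x * ∑ c, ‖m c‖ ^ 2 -
        K ^ 2 * (2 * ∑ c, ‖n c‖ + 4 * ‖α‖ + 4 * ‖β‖) * ‖β‖ := by
    simp only [Fin.sum_univ_four]; ring
  have tC : ∑ c, -(K ^ 3 * (‖n c‖ + ‖α‖ + ‖m c‖ + ‖β‖) * ‖β‖) =
      -(K ^ 3 * (∑ c, ‖n c‖ + 4 * ‖α‖ + ∑ c, ‖m c‖ + 4 * ‖β‖) * ‖β‖) := by
    simp only [Fin.sum_univ_four]; ring
  have tD : ∑ c, -((K ^ 2 * ‖n c‖ + K ^ 2 * ‖m c‖ + (K ^ 2 + K ^ 3) * (‖α‖ + ‖β‖)) * ‖β‖) =
      -((K ^ 2 * ∑ c, ‖n c‖ + K ^ 2 * ∑ c, ‖m c‖ + 4 * (K ^ 2 + K ^ 3) * (‖α‖ + ‖β‖)) * ‖β‖) := by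
    simp only [Fin.sum_univ_four]; ring
  rw [tA, Finset.sum_sub_distrib] at sA
  rw [tC] at sC
  rw [tD] at sD
  have hN0 : 0 ≤ ∑ c, ‖n c‖ := Finset.sum_nonneg fun c _ => norm_nonneg _
  have hm0 : 0 ≤ ∑ c, ‖m c‖ := Finset.sum_nonneg fun c _ => norm_nonneg _
  have hα0 : 0 ≤ ‖α‖ := norm_nonneg _
  have hβ0 : 0 ≤ ‖β‖ := norm_nonneg _
  have K2 : K ^ 2 ≤ K ^ 3 := pow_le_pow_right₀ hK1 (by norm_num)
  have K13 : K ≤ K ^ 3 := by
    calc K = K ^ 1 := (pow_one K).symm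
      _ ≤ K ^ 3 := pow_le_pow_right₀ hK1 (by norm_num)
  have q1 : K ^ 2 * ((∑ c, ‖n c‖) * ‖β‖) ≤ K ^ 3 * ((∑ c, ‖n c‖) * ‖β‖) :=
    mul_le_mul_of_nonneg_right K2 (by positivity)
  have q2 : K ^ 2 * ((∑ c, ‖m c‖) * ‖β‖) ≤ K ^ 3 * ((∑ c, ‖m c‖) * ‖β‖) :=
    mul_le_mul_of_nonneg_right K2 (by positivity)
  have q3 : K ^ 2 * (‖α‖ * ‖β‖) ≤ K ^ 3 * (‖α‖ * ‖β‖) :=
    mul_le_mul_of_nonneg_right K2 (by positivity)
  have q4 : K ^ 2 * (‖β‖ * ‖β‖) ≤ K ^ 3 * (‖β‖ * ‖β‖) :=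
    mul_le_mul_of_nonneg_right K2 (by positivity)
  have q5 : K * (‖α‖ * ‖β‖) ≤ K ^ 3 * (‖α‖ * ‖β‖) :=
    mul_le_mul_of_nonneg_right K13 (by positivity)
  have r1 : 0 ≤ K ^ 3 * ((∑ c, ‖n c‖) * ‖β‖) := by positivity
  have r2 : 0 ≤ K ^ 3 * ((∑ c, ‖m c‖) * ‖β‖) := by positivity
  have r3 : 0 ≤ K ^ 3 * (‖α‖ * ‖β‖) := by positivity
  have r4 : 0 ≤ K ^ 3 * (‖β‖ * ‖β‖) := by positivity
  nlinarith

/-- Young's inequality for the absorption -/
lemma young {K1 ρ ρ0 r a N m b M2 N2 : ℝ} (hK1 : 1 ≤ K1) (hρ0 : 0 < ρ0) (hρ0' : ρ0 ≤ 1)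
    (hρ : ρ0 ≤ ρ) (hr : 0 < r) (hr0 : 8 * (4 * K1 ^ 2 / ρ0 + K1) / ρ0 ^ 2 ≤ r) (ha0 : 0 ≤ a)
    (ha : a ≤ 2) (hm : m ^ 2 ≤ 4 * M2)
    (hN : N ^ 2 ≤ 4 * N2) :
    (1 / 4) * ρ0 ^ 2 * (M2 + r * b ^ 2) - (16 * K1 ^ 2 / (r * ρ0 ^ 2)) * (N2 + 1) ≤
      (1 / 2) * ρ * M2 + (1 / 2) * r * ρ ^ 2 * b ^ 2 - K1 * (N + a + m + b) * b := by
  have hM2 : 0 ≤ M2 := by nlinarith [sq_nonneg m]
  have e1 : K1 * m * b ≤ (ρ0 / 4) * M2 + 4 * K1 ^ 2 / ρ0 * b ^ 2 := by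
    have h1 : 0 ≤ (ρ0 / 4 * m - 2 * K1 * b) ^ 2 := sq_nonneg _
    have h2 : K1 * m * b * ρ0 ≤ (ρ0 ^ 2 / 16) * m ^ 2 + 4 * K1 ^ 2 * b ^ 2 := by nlinarith
    have h3 : (ρ0 ^ 2 / 16) * m ^ 2 ≤ (ρ0 ^ 2 / 4) * M2 := by nlinarith [sq_nonneg ρ0]
    have h4 : K1 * m * b * ρ0 ≤ ((ρ0 / 4) * M2 + 4 * K1 ^ 2 / ρ0 * b ^ 2) * ρ0 := by
      have : ((ρ0 / 4) * M2 + 4 * K1 ^ 2 / ρ0 * b ^ 2) * ρ0 =
          (ρ0 ^ 2 / 4) * M2 + 4 * K1 ^ 2 * b ^ 2 := by
        field_simp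
      rw [this]
      linarith
    exact le_of_mul_le_mul_right h4 hρ0
  have e2 : K1 * (N + a) * b ≤ (r * ρ0 ^ 2 / 8) * b ^ 2 +
      (16 * K1 ^ 2 / (r * ρ0 ^ 2)) * (N2 + 1) := by
    have hp : 0 < r * ρ0 ^ 2 := by positivity
    have h1 : 0 ≤ (r * ρ0 ^ 2 * b - 4 * K1 * (N + a)) ^ 2 := sq_nonneg _
    have h2 : 8 * (r * ρ0 ^ 2) * (K1 * (N + a) * b) ≤
        (r * ρ0 ^ 2) ^ 2 * b ^ 2 + 16 * K1 ^ 2 * (N + a) ^ 2 := by nlinarith
    have h3 : (N + a) ^ 2 ≤ 8 * (N2 + 1) := by nlinarith [sq_nonneg (N - a)]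
    have h4 : 16 * K1 ^ 2 * (N + a) ^ 2 ≤ 16 * K1 ^ 2 * (8 * (N2 + 1)) :=
      mul_le_mul_of_nonneg_left h3 (by positivity)
    have h5 : (K1 * (N + a) * b) * (8 * (r * ρ0 ^ 2)) ≤ ((r * ρ0 ^ 2 / 8) * b ^ 2 +
      (16 * K1 ^ 2 / (r * ρ0 ^ 2)) * (N2 + 1)) * (8 * (r * ρ0 ^ 2)) := by
      have : ((r * ρ0 ^ 2 / 8) * b ^ 2 +
          (16 * K1 ^ 2 / (r * ρ0 ^ 2)) * (N2 + 1)) * (8 * (r * ρ0 ^ 2)) =
          (r * ρ0 ^ 2) ^ 2 * b ^ 2 + 16 * K1 ^ 2 * (8 * (N2 + 1)) := by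
        field_simp
      rw [this]
      linarith
    exact le_of_mul_le_mul_right h5 (by positivity)
  have e3 : 4 * K1 ^ 2 / ρ0 + K1 ≤ r * ρ0 ^ 2 / 8 := by
    rw [div_le_iff₀ (by positivity)] at hr0
    linarith
  have e4 : (4 * K1 ^ 2 / ρ0 + K1) * b ^ 2 ≤ (r * ρ0 ^ 2 / 8) * b ^ 2 :=
    mul_le_mul_of_nonneg_right e3 (sq_nonneg b)
  have e5 : ρ0 ^ 2 ≤ ρ ^ 2 := pow_le_pow_left₀ hρ0.le hρ 2
  have e6 : (1 / 2) * r * ρ0 ^ 2 * b ^ 2 ≤ (1 / 2) * r * ρ ^ 2 * b ^ 2 := by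
    have : 0 ≤ r * b ^ 2 := by positivity
    nlinarith
  have e7 : (1 / 2) * ρ0 * M2 ≤ (1 / 2) * ρ * M2 := by nlinarith
  have e8 : (1 / 4) * ρ0 ^ 2 * M2 ≤ (1 / 4) * ρ0 * M2 := by
    have : ρ0 ^ 2 ≤ ρ0 := by nlinarith
    nlinarith
  have e9 : K1 * (N + a + m + b) * b = K1 * (N + a) * b + K1 * m * b + K1 * b ^ 2 := by ring
  rw [e9]
  nlinarith

lemma cov_basis {E : Type*} [NormedAddCommGroup E] [NormedSpace ℂ E] (A : R4 → R4 →L[ℝ] ℝ)
    (s : R4 → E) (x v : R4) : cov A s x v = ∑ i, (v i : ℂ) • cov A s x (e i) := by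
  have h1 : v = ∑ i, v i • e i := by
    conv_lhs => rw [← Finset.univ_sum_single v]
    refine Finset.sum_congr rfl fun i _ => ?_
    rw [e, ← Pi.single_smul, smul_eq_mul, mul_one]
  conv_lhs => rw [h1]
  rw [cov_sum_vec]
  exact Finset.sum_congr rfl fun i _ => cov_smul_vec A s x (e i) (v i)

lemma qs_smul {f : R4 → ℂ} {g : R4 → Sp} (hf : QS f) (hg : Per4 g) : QS fun x => f x • g x := by
  intro k x
  show f (tr k x) • g (tr k x) = _
  rw [hf k x, hg k x, smul_assoc]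

lemma qs_add {f g : R4 → Sp} (hf : QS f) (hg : QS g) : QS fun x => f x + g x := by
  intro k x
  show f (tr k x) + g (tr k x) = _
  rw [hf k x, hg k x, smul_add]

lemma dir_per {f : R4 → Sp} (hf : Per4 f) (Q : Quat D) (c : Fin 4) :
    Per4 fun x => fderiv ℝ f x (Q.b c x) := by
  intro k x
  show fderiv ℝ f (tr k x) (Q.b c (tr k x)) = _
  rw [per_fderiv hf k x, Q.b_per c k x]

lemma Ff_per (s : Sol Q M r u) (c : Fin 4) : Per4 (Ff s c) := dir_per s.fp_per Q c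
lemma Gf_per (s : Sol Q M r u) (c : Fin 4) : Per4 (Gf s c) := dir_per s.fm_per Q c

lemma z1_per (s : Sol Q M r u) : Per4 (z1 s) := by
  intro k x
  simp only [z1, Ff_per s _ k x]

lemma z2_per (s : Sol Q M r u) : Per4 (z2 s) := by
  intro k x
  simp only [z2, Gf_per s _ k x, s.zm_per k x]

lemma Sf_per (s : Sol Q M r u) (i : Fin 4) : Per4 (Sf s i) := by
  intro k x
  simp only [Sf, wf, Ff_per s _ k x, s.fm_per k x, Q.b_per _ k x]

lemma ph_smooth (s : Sol Q M r u) : ContDiff ℝ ∞ (ph s) :=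
  (s.α_smooth.smul s.fp_smooth).add (s.β_smooth.smul s.fm_smooth)
lemma ch_smooth (s : Sol Q M r u) : ContDiff ℝ ∞ (ch s) := s.β_smooth.smul s.fm_smooth
lemma ph'_smooth (s : Sol Q M r u) : ContDiff ℝ ∞ (ph' s) :=
  (s.α_smooth.smul (z1_contDiff s)).add (s.β_smooth.smul (z2_contDiff s))
lemma ph_qs (s : Sol Q M r u) : QS (ph s) :=
  qs_add (qs_smul s.α_quasi s.fp_per) (qs_smul s.β_quasi s.fm_per)
lemma ch_qs (s : Sol Q M r u) : QS (ch s) := qs_smul s.β_quasi s.fm_per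
lemma ph'_qs (s : Sol Q M r u) : QS (ph' s) :=
  qs_add (qs_smul s.α_quasi (z1_per s)) (qs_smul s.β_quasi (z2_per s))

lemma dirac_ph (s : Sol Q M r u) (x : R4) : Q.dirac s.a (ph s) x = ph' s x := by
  have h1 := s.dirac x
  have h2 : Q.dirac s.a (ph s) x =
      ∑ c, sig c (cov s.a s.α x (Q.b c x) • s.fp x + cov s.a s.β x (Q.b c x) • s.fm x) +
        s.α x • ∑ c, sig c (Ff s c x) + s.β x • ∑ c, sig c (Gf s c x) := by
    rw [Quat.dirac, Finset.smul_sum, Finset.smul_sum, ← Finset.sum_add_distrib,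
      ← Finset.sum_add_distrib]
    refine Finset.sum_congr rfl fun c _ => ?_
    rw [cov_ph, ← map_smul, ← map_smul, ← map_add, ← map_add]
    congr 1
    abel
  have h3 : ∑ c, sig c (cov s.a s.α x (Q.b c x) • s.fp x + cov s.a s.β x (Q.b c x) • s.fm x) =
      -(s.β x • s.zm x) := eq_neg_of_add_eq_zero_left h1
  rw [h2, h3, ph', z1, z2, smul_sub]
  abel

lemma cont_covc {A : R4 → R4 →L[ℝ] ℝ} {s : R4 → ℂ} (hA : ContDiff ℝ ∞ A) (hs : ContDiff ℝ ∞ s)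
    (c : Fin 4) : Continuous fun x => cov A s x (Q.b c x) :=
  (cov_contDiff A hA hs (Q.b_smooth c)).continuous

lemma cont_ib (s : Sol Q M r u) : Continuous (ib s) := by
  have hα := s.α_smooth.continuous
  have hβ := s.β_smooth.continuous
  have hcα : Continuous fun x => (starRingEnd ℂ) (s.α x) := Complex.continuous_conj.comp hα
  unfold ib
  refine Continuous.add ?_ (Continuous.mul ?_ (hcα.mul hβ))
  · refine continuous_finsetSum _ fun c _ => (wf_contDiff s c).continuous.mul ?_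
    exact ((Complex.continuous_conj.comp (cont_covc s.a_smooth s.α_smooth c)).mul hβ).add
      (hcα.mul (cont_covc s.a_smooth s.β_smooth c))
  · refine continuous_finsetSum _ fun i _ => ?_
    exact ((Sf_contDiff s i).continuous_fderiv (by simp)).clm_apply continuous_const

lemma int_ib (s : Sol Q M r u) : ∫ x in cube, ib s x = 0 := by
  have tα : Tw s.α := fun k x => by rw [s.α_quasi k x, smul_eq_mul]
  have tβ : Tw s.β := fun k x => by rw [s.β_quasi k x, smul_eq_mul]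
  have h1 : ∀ i, ∫ x in cube, (Sf s i x * ((starRingEnd ℂ) (nab s.a s.α x (e i)) * s.β x +
      (starRingEnd ℂ) (s.α x) * nab s.a s.β x (e i)) +
        fderiv ℝ (Sf s i) x (e i) * ((starRingEnd ℂ) (s.α x) * s.β x)) = 0 := by
    intro i
    refine ibp (s.α_smooth.of_le (by simp)) (s.β_smooth.of_le (by simp))
      ((Sf_contDiff s i).of_le (by simp)) ?_ i
    intro k x
    show Sf s i (tr k x) * ((starRingEnd ℂ) (s.α (tr k x)) * s.β (tr k x)) = _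
    have := tα.conj_mul tβ k x
    simp only at this
    rw [Sf_per s i k x, this]
  have h2 : ∀ x, ib s x = ∑ i, (Sf s i x * ((starRingEnd ℂ) (nab s.a s.α x (e i)) * s.β x +
      (starRingEnd ℂ) (s.α x) * nab s.a s.β x (e i)) +
        fderiv ℝ (Sf s i) x (e i) * ((starRingEnd ℂ) (s.α x) * s.β x)) := by
    intro x
    rw [Finset.sum_add_distrib, ib, ← Finset.sum_mul]
    congr 1
    have h3 : ∀ (g : R4 → ℂ) (i : Fin 4), nab s.a g x (e i) = cov s.a g x (e i) := fun _ _ => rfl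
    simp only [h3]
    have h4 : ∀ c, wf s c x * ((starRingEnd ℂ) (cov s.a s.α x (Q.b c x)) * s.β x +
        (starRingEnd ℂ) (s.α x) * cov s.a s.β x (Q.b c x)) =
        ∑ i, ((Q.b c x i : ℝ) : ℂ) * wf s c x * ((starRingEnd ℂ) (cov s.a s.α x (e i)) * s.β x +
      (starRingEnd ℂ) (s.α x) * cov s.a s.β x (e i)) := by
      intro c
      rw [cov_basis s.a s.α x (Q.b c x), cov_basis s.a s.β x (Q.b c x), map_sum, Finset.sum_mul,
        Finset.mul_sum, ← Finset.sum_add_distrib, Finset.mul_sum]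
      refine Finset.sum_congr rfl fun i _ => ?_
      simp only [smul_eq_mul, map_mul, Complex.conj_ofReal]
      ring
    simp only [h4, Sf]
    rw [Finset.sum_comm]
    refine Finset.sum_congr rfl fun i _ => ?_
    rw [Finset.sum_mul]
  simp only [h2]
  rw [integral_finsetSum]
  · exact Finset.sum_eq_zero fun i _ => h1 i
  · intro i _
    refine Continuous.integrableOn_Icc ?_
    have hα := s.α_smooth.continuous
    have hβ := s.β_smooth.continuous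
    have hcα : Continuous fun x => (starRingEnd ℂ) (s.α x) := Complex.continuous_conj.comp hα
    have c1 : Continuous fun x => nab s.a s.α x (e i) :=
      (cov_contDiff s.a s.a_smooth s.α_smooth contDiff_const).continuous
    have c2 : Continuous fun x => nab s.a s.β x (e i) :=
      (cov_contDiff s.a s.a_smooth s.β_smooth contDiff_const).continuous
    refine Continuous.add ((Sf_contDiff s i).continuous.mul ?_) (Continuous.mul ?_ (hcα.mul hβ))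
    · exact ((Complex.continuous_conj.comp c1).mul hβ).add (hcα.mul c2)
    · exact ((Sf_contDiff s i).continuous_fderiv (by simp)).clm_apply continuous_const

theorem BETA (hIL : IL_statement) (hFR : FRM_statement) : BETA_statement := by
  intro D Q M
  obtain ⟨δ, B, hδ, hδp, hB, hBp, hI⟩ := hIL D Q
  obtain ⟨K0, hK0, hCB⟩ := exists_CB Q M
  obtain ⟨C0, hC0, hρb⟩ := rho_bounds Q
  choose M1 hM1 hM1' using fun c => per_bdd (hδ c).continuous (hδp c)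
  choose M2 hM2 hM2' using fun c => per_bdd (hB c).continuous (hBp c)
  have p1 : 0 ≤ ∑ c, M1 c := Finset.sum_nonneg fun c _ => (hM1 c).le
  have p2 : 0 ≤ ∑ c, M2 c := Finset.sum_nonneg fun c _ => (hM2 c).le
  obtain ⟨K, hKK0, hKd, hKB⟩ : ∃ K : ℝ, K0 ≤ K ∧ (∀ c x, |δ c x| ≤ K) ∧ ∀ c x, ‖B c x‖ ≤ K := by
    refine ⟨K0 + ∑ c, M1 c + ∑ c, M2 c, by linarith, fun c x => ?_, fun c x => ?_⟩
    · have := Finset.single_le_sum (f := M1) (fun c _ => (hM1 c).le) (Finset.mem_univ c)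
      have h2 := hM1' c x
      rw [Real.norm_eq_abs] at h2
      linarith
    · have := Finset.single_le_sum (f := M2) (fun c _ => (hM2 c).le) (Finset.mem_univ c)
      have := hM2' c x
      linarith
  have hK1 : 1 ≤ K := hK0.trans hKK0
  have hKC : ∀ (r : ℝ) (u : Fin 3 → ℝ) (s : Sol Q M r u) (x : R4), CB s K x := by
    intro r u s x
    have h := hCB r u s x
    exact ⟨h.fp.trans hKK0, h.fm.trans hKK0, fun c => (h.F c).trans hKK0,
      fun c => (h.G c).trans hKK0, h.z1.trans hKK0, h.z2.trans hKK0,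
      fun c => (h.y1 c).trans hKK0, fun c => (h.y2 c).trans hKK0, h.dS.trans hKK0,
      fun k => (h.κ k).trans hKK0⟩
  set K1 : ℝ := 20 * K ^ 3 with hK1def
  have hK11 : 1 ≤ K1 := by
    have : 1 ≤ K ^ 3 := one_le_pow₀ hK1
    linarith
  set ρ0 : ℝ := (C0 + 1)⁻¹ with hρ0
  have hρ0pos : 0 < ρ0 := by positivity
  have hρ01 : ρ0 ≤ 1 := inv_le_one_of_one_le₀ (by linarith)
  refine ⟨64 * K1 ^ 2 / ρ0 ^ 4, max (8 * (4 * K1 ^ 2 / ρ0 + K1) / ρ0 ^ 2) (|M| + 1), ?_⟩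
  intro r u s hr
  have hr0 : 8 * (4 * K1 ^ 2 / ρ0 + K1) / ρ0 ^ 2 ≤ r := (le_max_left _ _).trans hr
  have hrM : |M| + 1 ≤ r := (le_max_right _ _).trans hr
  have hrpos : 0 < r := s.r_pos
  have hα2 : ∀ x, ‖s.α x‖ ≤ 2 := by
    intro x
    have h1 := s.max x
    have h2 : M / r ≤ 1 := by
      rw [div_le_one hrpos]
      have := le_abs_self M
      linarith
    have h3 : ‖s.α x‖ ^ 2 ≤ 2 := by
      have := sq_nonneg ‖s.β x‖
      linarith
    nlinarith [norm_nonneg (s.α x)]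
  have hρ : ∀ x, ρ0 ≤ Q.rho u x := by
    intro x
    have h1 := (hρb u x).1
    rw [s.u_unit] at h1
    have h2 : 0 ≤ Q.rho u x := rho_nonneg Q u x
    rw [hρ0, inv_le_iff_one_le_mul₀ (by positivity)]
    nlinarith
  have hIx := hI s.a (ph s) (ch s) s.a_smooth s.a_quasi (ph_smooth s) (ph_qs s) (ch_smooth s)
    (ch_qs s)
  have hIx' := hI s.a (ph' s) (ch s) s.a_smooth s.a_quasi (ph'_smooth s) (ph'_qs s)
    (ch_smooth s) (ch_qs s)
  have h3 := IL_re (fun c => (hδ c).continuous) (fun c => (hB c).continuous) s.a_smooth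
    (ph_smooth s) (ph'_smooth s) (ch_smooth s) (dirac_ph s) hIx.2 hIx'.1
  have cJ1 : Continuous (J1 Q B s.a (ph s) (ch s)) :=
    cont_J1 (fun c => (hB c).continuous) s.a_smooth (ph_smooth s) (ch_smooth s)
  have cJ2 : Continuous (J2 Q δ s.a (ph' s) (ch s)) :=
    cont_J2 (fun c => (hδ c).continuous) s.a_smooth (ph'_smooth s) (ch_smooth s)
  have cib := cont_ib s
  have iJ : IntegrableOn (fun x => (J1 Q B s.a (ph s) (ch s) x).re +
      (J2 Q δ s.a (ph' s) (ch s) x).re) cube :=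
    ((Complex.continuous_re.comp cJ1).add (Complex.continuous_re.comp cJ2)).integrableOn_Icc
  have iib : IntegrableOn (fun x => (ib s x).re) cube :=
    (Complex.continuous_re.comp cib).integrableOn_Icc
  have h4 : ∫ x in cube, (ib s x).re = 0 := by
    have h5 : IntegrableOn (ib s) cube := cib.integrableOn_Icc
    have h6 : ∫ x in cube, (ib s x).re = (∫ x in cube, ib s x).re := integral_re h5
    rw [h6, int_ib]
    simp
  have h5 : ∫ x in cube, (((J1 Q B s.a (ph s) (ch s) x).re +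
      (J2 Q δ s.a (ph' s) (ch s) x).re) - (ib s x).re) = 0 := by
    rw [integral_sub iJ iib, h3, h4, sub_zero]
  have cα : ∀ c, Continuous fun x => ‖cov s.a s.α x (Q.b c x)‖ := fun c =>
    (cont_covc s.a_smooth s.α_smooth c).norm
  have cβ : ∀ c, Continuous fun x => ‖cov s.a s.β x (Q.b c x)‖ := fun c =>
    (cont_covc s.a_smooth s.β_smooth c).norm
  have cb : Continuous fun x => ‖s.β x‖ := s.β_smooth.continuous.norm
  have i1 : IntegrableOn (fun x => ∑ c, ‖cov s.a s.β x (Q.b c x)‖ ^ 2 + r * ‖s.β x‖ ^ 2) cube :=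
    ((continuous_finsetSum _ fun c _ => (cβ c).pow 2).add
      (continuous_const.mul (cb.pow 2))).integrableOn_Icc
  have i2 : IntegrableOn (fun x => ∑ c, ‖cov s.a s.α x (Q.b c x)‖ ^ 2 + 1) cube :=
    ((continuous_finsetSum _ fun c _ => (cα c).pow 2).add continuous_const).integrableOn_Icc
  have h6 : ∫ x in cube, ((1 / 4) * ρ0 ^ 2 * (∑ c, ‖cov s.a s.β x (Q.b c x)‖ ^ 2 +
      r * ‖s.β x‖ ^ 2) - (16 * K1 ^ 2 / (r * ρ0 ^ 2)) *
        (∑ c, ‖cov s.a s.α x (Q.b c x)‖ ^ 2 + 1)) ≤ 0 := by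
    rw [← h5]
    refine setIntegral_mono ((i1.const_mul _).sub (i2.const_mul _)) (iJ.sub iib) fun x => ?_
    have a1 := pwB hFR s hK1 (hKC r u s x) (B := B) (δ := δ) (fun c => hKB c x)
      (fun c => hKd c x)
    have sq4 : ∀ g : Fin 4 → ℝ, (∑ c, g c) ^ 2 ≤ 4 * ∑ c, g c ^ 2 := by
      intro g
      have := sq_sum_le_card_mul_sum_sq (s := (Finset.univ : Finset (Fin 4))) (f := g)
      simpa using this
    have a2 := young (ρ := Q.rho u x) (b := ‖s.β x‖) hK11 hρ0pos hρ01 (hρ x) hrpos hr0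
      (norm_nonneg (s.α x)) (hα2 x) (sq4 fun c => ‖cov s.a s.β x (Q.b c x)‖)
      (sq4 fun c => ‖cov s.a s.α x (Q.b c x)‖)
    exact a2.trans a1
  rw [integral_sub (i1.const_mul _) (i2.const_mul _), integral_const_mul, integral_const_mul]
    at h6
  set I1 := ∫ x in cube, (∑ c, ‖cov s.a s.β x (Q.b c x)‖ ^ 2 + r * ‖s.β x‖ ^ 2) with hI1
  set I2 := ∫ x in cube, (∑ c, ‖cov s.a s.α x (Q.b c x)‖ ^ 2 + 1) with hI2
  have h7 : 64 * K1 ^ 2 / ρ0 ^ 4 / r * I2 =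
      (4 / ρ0 ^ 2) * (16 * K1 ^ 2 / (r * ρ0 ^ 2) * I2) := by
    field_simp
    ring
  have h8 : I1 = (4 / ρ0 ^ 2) * ((1 / 4) * ρ0 ^ 2 * I1) := by
    field_simp
  rw [h7, h8]
  exact mul_le_mul_of_nonneg_left (by linarith) (by positivity)

end Vale.Agent.P247.H558
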