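import Vale.Agent.P247.H558.Max

/-!
# The estimate of `β`: pointwise part
-/

open scoped ContDiff Topology
open Set MeasureTheory Filter Metric

noncomputable section

namespace Vale.Agent.P247.H558

open Vale.Agent.P247.H74 Vale.Agent.P247.H574 Vale.Agent.P247.H647

lemma norm_pau (k : Fin 3) (ψ : Sp) : ‖pau k ψ‖ = ‖ψ‖ := by
  have h : ‖pau k ψ‖ ^ 2 = ‖ψ‖ ^ 2 := by
    rw [norm_sq_sp, norm_sq_sp]
    fin_cases k
    · simp
      ring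
    · simp
      ring
    · simp
  have := congrArg Real.sqrt h
  rwa [Real.sqrt_sq (norm_nonneg _), Real.sqrt_sq (norm_nonneg _)] at this

/-- eigenvectors for opposite eigenvalues are orthogonal -/
lemma orth {n : Fin 3 → ℝ} {ρ : ℝ} (hρ : ρ ≠ 0) {f g : Sp}
    (hf : ∑ k, (n k : ℂ) • pau k f = (ρ / 2 : ℂ) • f)
    (hg : ∑ k, (n k : ℂ) • pau k g = -(ρ / 2 : ℂ) • g) : (inner ℂ f g : ℂ) = 0 := by
  have h1 : (inner ℂ (∑ k, (n k : ℂ) • pau k f) g : ℂ) =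
      inner ℂ f (∑ k, (n k : ℂ) • pau k g) := by
    rw [sum_inner, inner_sum]
    refine Finset.sum_congr rfl fun k _ => ?_
    rw [inner_smul_left, inner_smul_right, pau_symm, Complex.conj_ofReal]
  rw [hf, hg, inner_smul_left, inner_smul_right] at h1
  have h2 : (starRingEnd ℂ) (ρ / 2 : ℂ) = (ρ / 2 : ℂ) := by
    have : ((ρ : ℂ) / 2) = ((ρ / 2 : ℝ) : ℂ) := by push_cast; ring
    rw [this, Complex.conj_ofReal]
  rw [h2] at h1
  have h3 : (ρ : ℂ) * inner ℂ f g = 0 := by linear_combination h1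
  exact (mul_eq_zero.1 h3).resolve_left (by exact_mod_cast hρ)

lemma re_ge_neg {z : ℂ} {b : ℝ} (h : ‖z‖ ≤ b) : -b ≤ z.re :=
  (neg_le_neg h).trans (abs_le.1 (Complex.abs_re_le_norm z)).1

lemma norm_inner_bd {a b : Sp} {s t : ℝ} (ha : ‖a‖ ≤ s) (hb : ‖b‖ ≤ t) :
    ‖(inner ℂ a b : ℂ)‖ ≤ s * t :=
  (norm_inner_le_norm a b).trans (mul_le_mul ha hb (norm_nonneg _) ((norm_nonneg _).trans ha))

/-- main term, one frame direction -/
lemma partA {K ρ : ℝ} {fp fm F G : Sp} {α β n m : ℂ} (hfp : ‖fp‖ ≤ K)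
    (hfm : ‖fm‖ ≤ K) (hF : ‖F‖ ≤ K) (hG : ‖G‖ ≤ K) (hρ : ‖fm‖ ^ 2 = ρ)
    (ho : (inner ℂ fp fm : ℂ) = 0) :
    (1 / 2) * ρ * ‖m‖ ^ 2 - K ^ 2 * (2 * ‖n‖ + ‖α‖ + ‖β‖) * ‖β‖ ≤
      (inner ℂ (n • fp + α • F + m • fm + β • G) (m • fm + β • G) : ℂ).re -
        ((inner ℂ F fm : ℂ) * ((starRingEnd ℂ) n * β + (starRingEnd ℂ) α * m)).re := by
  have hK : 0 ≤ K := (norm_nonneg _).trans hfp
  have e1 : (inner ℂ (n • fp + α • F + m • fm + β • G) (m • fm + β • G) : ℂ) =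
      inner ℂ (n • fp) (β • G) + (inner ℂ F fm : ℂ) * ((starRingEnd ℂ) α * m) +
        inner ℂ (α • F) (β • G) + inner ℂ (m • fm + β • G) (m • fm + β • G) := by
    have h1 : n • fp + α • F + m • fm + β • G = (n • fp + α • F) + (m • fm + β • G) := by abel
    rw [h1, inner_add_left (n • fp + α • F), inner_add_left (n • fp), inner_add_right (n • fp),
      inner_add_right (α • F)]
    have h2 : (inner ℂ (n • fp) (m • fm) : ℂ) = 0 := by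
      rw [inner_smul_left, inner_smul_right, ho]; simp
    have h3 : (inner ℂ (α • F) (m • fm) : ℂ) =
        (inner ℂ F fm : ℂ) * ((starRingEnd ℂ) α * m) := by
      rw [inner_smul_left, inner_smul_right]; ring
    rw [h2, h3]
    ring
  have e2 : (inner ℂ (m • fm + β • G) (m • fm + β • G) : ℂ).re = ‖m • fm + β • G‖ ^ 2 := by
    rw [inner_self_eq_norm_sq_to_K]
    norm_cast
  have e3 : (1 / 2) * ρ * ‖m‖ ^ 2 - K ^ 2 * ‖β‖ ^ 2 ≤ ‖m • fm + β • G‖ ^ 2 := by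
    have h1 : ‖m • fm‖ ≤ ‖m • fm + β • G‖ + ‖β • G‖ := by
      have := norm_sub_le (m • fm + β • G) (β • G)
      simpa using this
    have h2 : ‖m • fm‖ ^ 2 = ρ * ‖m‖ ^ 2 := by
      rw [norm_smul, mul_pow, hρ]; ring
    have h3 : ‖β • G‖ ≤ K * ‖β‖ := by
      rw [norm_smul, mul_comm]
      exact mul_le_mul_of_nonneg_right hG (norm_nonneg _)
    have h4 : ‖β • G‖ ^ 2 ≤ K ^ 2 * ‖β‖ ^ 2 := by
      rw [← mul_pow]
      exact pow_le_pow_left₀ (norm_nonneg _) h3 2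
    have h5 : ‖m • fm‖ ^ 2 ≤ 2 * ‖m • fm + β • G‖ ^ 2 + 2 * ‖β • G‖ ^ 2 := by
      have h6 := pow_le_pow_left₀ (norm_nonneg _) h1 2
      nlinarith [sq_nonneg (‖m • fm + β • G‖ - ‖β • G‖)]
    nlinarith
  have b1 : -(K ^ 2 * ‖n‖ * ‖β‖) ≤ (inner ℂ (n • fp) (β • G) : ℂ).re := by
    refine re_ge_neg ?_
    have h1 : ‖n • fp‖ ≤ ‖n‖ * K := by
      rw [norm_smul]; exact mul_le_mul_of_nonneg_left hfp (norm_nonneg _)
    have h2 : ‖β • G‖ ≤ ‖β‖ * K := by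
      rw [norm_smul]; exact mul_le_mul_of_nonneg_left hG (norm_nonneg _)
    refine (norm_inner_bd h1 h2).trans (le_of_eq (by ring))
  have b2 : -(K ^ 2 * ‖α‖ * ‖β‖) ≤ (inner ℂ (α • F) (β • G) : ℂ).re := by
    refine re_ge_neg ?_
    have h1 : ‖α • F‖ ≤ ‖α‖ * K := by
      rw [norm_smul]; exact mul_le_mul_of_nonneg_left hF (norm_nonneg _)
    have h2 : ‖β • G‖ ≤ ‖β‖ * K := by
      rw [norm_smul]; exact mul_le_mul_of_nonneg_left hG (norm_nonneg _)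
    refine (norm_inner_bd h1 h2).trans (le_of_eq (by ring))
  have b3 : -(K ^ 2 * ‖n‖ * ‖β‖) ≤ (-((inner ℂ F fm : ℂ) * ((starRingEnd ℂ) n * β))).re := by
    refine re_ge_neg ?_
    rw [norm_neg, norm_mul, norm_mul, RCLike.norm_conj]
    have h1 : ‖(inner ℂ F fm : ℂ)‖ ≤ K * K := norm_inner_bd hF hfm
    calc ‖(inner ℂ F fm : ℂ)‖ * (‖n‖ * ‖β‖) ≤ (K * K) * (‖n‖ * ‖β‖) :=
          mul_le_mul_of_nonneg_right h1 (by positivity)
      _ = _ := by ring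
  have e4 : ((inner ℂ F fm : ℂ) * ((starRingEnd ℂ) n * β + (starRingEnd ℂ) α * m)).re =
      ((inner ℂ F fm : ℂ) * ((starRingEnd ℂ) α * m)).re -
        (-((inner ℂ F fm : ℂ) * ((starRingEnd ℂ) n * β))).re := by
    rw [mul_add, Complex.add_re, Complex.neg_re]
    ring
  rw [e1, e4, Complex.add_re, Complex.add_re, Complex.add_re, e2]
  nlinarith

/-- curvature term -/
lemma partB {K ρ r : ℝ} {fp fm : Sp} {α β : ℂ} {n κ F : Fin 3 → ℝ} (hr : 0 ≤ r) (hρ0 : 0 ≤ ρ)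
    (hfp : ‖fp‖ ≤ K) (hfm : ‖fm‖ ≤ K) (hκ : ∀ k, |κ k| ≤ K) (hρ : ‖fm‖ ^ 2 = ρ)
    (ho : (inner ℂ fp fm : ℂ) = 0) (hp : ∑ k, (n k : ℂ) • pau k fp = (ρ / 2 : ℂ) • fp)
    (hm : ∑ k, (n k : ℂ) • pau k fm = -(ρ / 2 : ℂ) • fm)
    (hF : ∀ k, F k = r * (n k - (1 / 2) * pv (α • fp + β • fm) k) + κ k) :
    (1 / 2) * r * ρ ^ 2 * ‖β‖ ^ 2 - 3 * K ^ 3 * (‖α‖ + ‖β‖) * ‖β‖ ≤
      (-∑ k, (F k : ℂ) * inner ℂ (pau k (α • fp + β • fm)) (β • fm)).re := by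
  have hK : 0 ≤ K := (norm_nonneg _).trans hfp
  set φ := α • fp + β • fm with hφ
  have hχ : ‖β • fm‖ ≤ K * ‖β‖ := by
    rw [norm_smul, mul_comm]; exact mul_le_mul_of_nonneg_right hfm (norm_nonneg _)
  have hφn : ‖φ‖ ≤ K * (‖α‖ + ‖β‖) := by
    refine (norm_add_le _ _).trans ?_
    rw [norm_smul, norm_smul]
    have h1 := mul_le_mul_of_nonneg_left hfp (norm_nonneg α)
    have h2 := mul_le_mul_of_nonneg_left hfm (norm_nonneg β)
    linarith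
  have hin : (inner ℂ φ (β • fm) : ℂ) = ((ρ * ‖β‖ ^ 2 : ℝ) : ℂ) := by
    rw [hφ, inner_add_left, inner_smul_left, inner_smul_right, ho, inner_self_eq_norm_sq_to_K]
    have h1 : ‖β • fm‖ ^ 2 = ρ * ‖β‖ ^ 2 := by rw [norm_smul, mul_pow, hρ]; ring
    rw [← h1]
    push_cast
    simp
  have hN : ∑ k, (n k : ℂ) • pau k φ = (ρ / 2 : ℂ) • (α • fp - β • fm) := by
    have h1 : ∑ k, (n k : ℂ) • pau k φ = α • ∑ k, (n k : ℂ) • pau k fp +
        β • ∑ k, (n k : ℂ) • pau k fm := by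
      rw [Finset.smul_sum, Finset.smul_sum, ← Finset.sum_add_distrib]
      refine Finset.sum_congr rfl fun k _ => ?_
      rw [hφ, map_add, map_smul, map_smul, smul_add, smul_comm α, smul_comm β]
    rw [h1, hp, hm, smul_sub, smul_comm α, smul_comm β, neg_smul]
    abel
  have e1 : ∑ k, (n k : ℂ) * inner ℂ (pau k φ) (β • fm) = -((1 / 2 * ρ ^ 2 * ‖β‖ ^ 2 : ℝ) : ℂ) := by
    have h1 : ∑ k, (n k : ℂ) * inner ℂ (pau k φ) (β • fm) =
        inner ℂ (∑ k, (n k : ℂ) • pau k φ) (β • fm) := by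
      rw [sum_inner]
      refine Finset.sum_congr rfl fun k _ => ?_
      rw [inner_smul_left, Complex.conj_ofReal]
    rw [h1, hN, inner_smul_left, inner_sub_left, inner_smul_left, inner_smul_right, ho,
      inner_self_eq_norm_sq_to_K]
    have h2 : ‖β • fm‖ ^ 2 = ρ * ‖β‖ ^ 2 := by rw [norm_smul, mul_pow, hρ]; ring
    have h3 : (starRingEnd ℂ) (ρ / 2 : ℂ) = (ρ / 2 : ℂ) := by
      have : ((ρ : ℂ) / 2) = ((ρ / 2 : ℝ) : ℂ) := by push_cast; ring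
      rw [this, Complex.conj_ofReal]
    have h4 : ((‖β • fm‖ : ℝ) : ℂ) ^ 2 = ((ρ * ‖β‖ ^ 2 : ℝ) : ℂ) := by
      rw [← h2]; push_cast; rfl
    rw [h3]
    simp only [mul_zero, zero_sub]
    have h5 : ((‖β • fm‖ : ℂ)) ^ 2 = (ρ : ℂ) * (‖β‖ : ℂ) ^ 2 := by
      rw [h4]; push_cast; ring
    push_cast
    simp only [Complex.coe_algebraMap]
    rw [h5]
    ring
  have e2 : ∑ k, (pv φ k : ℂ) * inner ℂ (pau k φ) (β • fm) =
      ((‖φ‖ ^ 2 * (ρ * ‖β‖ ^ 2) : ℝ) : ℂ) := by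
    have h1 : ∑ k, (pv φ k : ℂ) * inner ℂ (pau k φ) (β • fm) =
        inner ℂ (∑ k, (pv φ k : ℂ) • pau k φ) (β • fm) := by
      rw [sum_inner]
      refine Finset.sum_congr rfl fun k _ => ?_
      rw [inner_smul_left, Complex.conj_ofReal]
    rw [h1, fierz', inner_smul_left, hin, Complex.conj_ofReal]
    push_cast
    ring
  have e3 : -∑ k, (F k : ℂ) * inner ℂ (pau k φ) (β • fm) =
      ((1 / 2 * r * ρ ^ 2 * ‖β‖ ^ 2 + 1 / 2 * r * (‖φ‖ ^ 2 * (ρ * ‖β‖ ^ 2)) : ℝ) : ℂ) +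
      -∑ k, (κ k : ℂ) * inner ℂ (pau k φ) (β • fm) := by
    have h1 : ∑ k, (F k : ℂ) * inner ℂ (pau k φ) (β • fm) =
        (r : ℂ) * ∑ k, (n k : ℂ) * inner ℂ (pau k φ) (β • fm) -
        (1 / 2 * r : ℂ) * ∑ k, (pv φ k : ℂ) * inner ℂ (pau k φ) (β • fm) +
        ∑ k, (κ k : ℂ) * inner ℂ (pau k φ) (β • fm) := by
      rw [Finset.mul_sum, Finset.mul_sum, ← Finset.sum_sub_distrib, ← Finset.sum_add_distrib]
      refine Finset.sum_congr rfl fun k _ => ?_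
      rw [hF]
      push_cast
      ring
    rw [h1, e1, e2]
    push_cast
    ring
  rw [e3, Complex.add_re, Complex.ofReal_re]
  have e4 : -(3 * K ^ 3 * (‖α‖ + ‖β‖) * ‖β‖) ≤
      (-∑ k, (κ k : ℂ) * inner ℂ (pau k φ) (β • fm)).re := by
    refine re_ge_neg ?_
    rw [norm_neg]
    refine (norm_sum_le _ _).trans ?_
    have h1 : ∀ k ∈ (Finset.univ : Finset (Fin 3)), ‖(κ k : ℂ) * inner ℂ (pau k φ) (β • fm)‖ ≤
        K ^ 3 * (‖α‖ + ‖β‖) * ‖β‖ := by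
      intro k _
      rw [norm_mul]
      have h2 : ‖(κ k : ℂ)‖ ≤ K := by simpa using hκ k
      have h3 : ‖(inner ℂ (pau k φ) (β • fm) : ℂ)‖ ≤ (K * (‖α‖ + ‖β‖)) * (K * ‖β‖) :=
        norm_inner_bd (by rw [norm_pau]; exact hφn) hχ
      calc _ ≤ K * ((K * (‖α‖ + ‖β‖)) * (K * ‖β‖)) := mul_le_mul h2 h3 (norm_nonneg _) hK
        _ = _ := by ring
    have h2 := Finset.sum_le_card_nsmul _ _ _ h1
    simp only [Finset.card_univ, Fintype.card_fin, nsmul_eq_mul, Nat.cast_ofNat] at h2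
    linarith
  have e5 : 0 ≤ 1 / 2 * r * (‖φ‖ ^ 2 * (ρ * ‖β‖ ^ 2)) := by positivity
  linarith

/-- zero order terms, one frame direction -/
lemma partC {K : ℝ} {fp fm F G : Sp} {B : En} {α β n m : ℂ} (hfp : ‖fp‖ ≤ K)
    (hfm : ‖fm‖ ≤ K) (hF : ‖F‖ ≤ K) (hG : ‖G‖ ≤ K) (hB : ‖B‖ ≤ K) :
    -(K ^ 3 * (‖n‖ + ‖α‖ + ‖m‖ + ‖β‖) * ‖β‖) ≤
      (inner ℂ (B (n • fp + α • F + m • fm + β • G)) (β • fm) : ℂ).re := by
  have hK : 0 ≤ K := (norm_nonneg _).trans hfp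
  refine re_ge_neg ?_
  have h1 : ‖n • fp + α • F + m • fm + β • G‖ ≤ K * (‖n‖ + ‖α‖ + ‖m‖ + ‖β‖) := by
    have a1 : ‖n • fp‖ ≤ ‖n‖ * K := by
      rw [norm_smul]; exact mul_le_mul_of_nonneg_left hfp (norm_nonneg _)
    have a2 : ‖α • F‖ ≤ ‖α‖ * K := by
      rw [norm_smul]; exact mul_le_mul_of_nonneg_left hF (norm_nonneg _)
    have a3 : ‖m • fm‖ ≤ ‖m‖ * K := by
      rw [norm_smul]; exact mul_le_mul_of_nonneg_left hfm (norm_nonneg _)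
    have a4 : ‖β • G‖ ≤ ‖β‖ * K := by
      rw [norm_smul]; exact mul_le_mul_of_nonneg_left hG (norm_nonneg _)
    have := norm_add₄_le (a := n • fp) (b := α • F) (c := m • fm) (d := β • G)
    linarith
  have h2 : ‖B (n • fp + α • F + m • fm + β • G)‖ ≤ K * (K * (‖n‖ + ‖α‖ + ‖m‖ + ‖β‖)) :=
    (B.le_opNorm _).trans (mul_le_mul hB h1 (norm_nonneg _) hK)
  have h3 : ‖β • fm‖ ≤ K * ‖β‖ := by
    rw [norm_smul, mul_comm]; exact mul_le_mul_of_nonneg_right hfm (norm_nonneg _)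
  exact (norm_inner_bd h2 h3).trans (le_of_eq (by ring))

lemma partD {K δ : ℝ} {fm z1 z2 y1 y2 : Sp} {α β n m : ℂ} (c : Fin 4) (hfm : ‖fm‖ ≤ K)
    (hz1 : ‖z1‖ ≤ K) (hz2 : ‖z2‖ ≤ K) (hy1 : ‖y1‖ ≤ K) (hy2 : ‖y2‖ ≤ K) (hδ : |δ| ≤ K) :
    -((K ^ 2 * ‖n‖ + K ^ 2 * ‖m‖ + (K ^ 2 + K ^ 3) * (‖α‖ + ‖β‖)) * ‖β‖) ≤
      (inner ℂ (n • z1 + α • y1 + (m • z2 + β • y2) + (δ : ℂ) • (α • z1 + β • z2))
        (sig c (β • fm)) : ℂ).re := by
  have hK : 0 ≤ K := (norm_nonneg _).trans hfm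
  refine re_ge_neg ?_
  have a1 : ‖n • z1‖ ≤ ‖n‖ * K := by
    rw [norm_smul]; exact mul_le_mul_of_nonneg_left hz1 (norm_nonneg _)
  have a2 : ‖α • y1‖ ≤ ‖α‖ * K := by
    rw [norm_smul]; exact mul_le_mul_of_nonneg_left hy1 (norm_nonneg _)
  have a3 : ‖m • z2‖ ≤ ‖m‖ * K := by
    rw [norm_smul]; exact mul_le_mul_of_nonneg_left hz2 (norm_nonneg _)
  have a4 : ‖β • y2‖ ≤ ‖β‖ * K := by
    rw [norm_smul]; exact mul_le_mul_of_nonneg_left hy2 (norm_nonneg _)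
  have a5 : ‖(δ : ℂ) • (α • z1 + β • z2)‖ ≤ K * (‖α‖ * K + ‖β‖ * K) := by
    rw [norm_smul]
    refine mul_le_mul (by simpa using hδ) ?_ (norm_nonneg _) hK
    refine (norm_add_le _ _).trans (add_le_add ?_ ?_)
    · rw [norm_smul]; exact mul_le_mul_of_nonneg_left hz1 (norm_nonneg _)
    · rw [norm_smul]; exact mul_le_mul_of_nonneg_left hz2 (norm_nonneg _)
  have h1 : ‖n • z1 + α • y1 + (m • z2 + β • y2) + (δ : ℂ) • (α • z1 + β • z2)‖ ≤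
      K * ‖n‖ + K * ‖m‖ + (K + K ^ 2) * (‖α‖ + ‖β‖) := by
    have b1 := norm_add_le (n • z1 + α • y1 + (m • z2 + β • y2)) ((δ : ℂ) • (α • z1 + β • z2))
    have b2 := norm_add_le (n • z1 + α • y1) (m • z2 + β • y2)
    have b3 := norm_add_le (n • z1) (α • y1)
    have b4 := norm_add_le (m • z2) (β • y2)
    nlinarith
  have h3 : ‖sig c (β • fm)‖ ≤ K * ‖β‖ := by
    rw [norm_sig, norm_smul, mul_comm]; exact mul_le_mul_of_nonneg_right hfm (norm_nonneg _)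
  exact (norm_inner_bd h1 h3).trans (le_of_eq (by ring))

end Vale.Agent.P247.H558
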