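import Vale.Agent.P247.H558.BetaP

/-!
# The estimate of `β`: bounds for the coefficients and the pointwise inequality
-/

open scoped ContDiff Topology
open Set MeasureTheory Filter Metric

noncomputable section

namespace Vale.Agent.P247.H558

open Vale.Agent.P247.H74 Vale.Agent.P247.H574 Vale.Agent.P247.H647

/-- derivative along a frame field -/
lemma dir_bd {f : R4 → Sp} {b : R4 → R4} {M Mb : ℝ} (hf : ContDiff ℝ ∞ f) (hb : ContDiff ℝ ∞ b)
    (hfM : Bd M f) (hb1 : ∀ x, ‖b x‖ ≤ Mb) (hb2 : ∀ x, ‖fderiv ℝ b x‖ ≤ Mb) :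
    (ContDiff ℝ ∞ fun x => fderiv ℝ f x (b x)) ∧ (∀ x, ‖fderiv ℝ f x (b x)‖ ≤ M * Mb) ∧
      ∀ x, ‖fderiv ℝ (fun y => fderiv ℝ f y (b y)) x‖ ≤ 2 * (M * Mb) := by
  have hM : 0 ≤ M := (norm_nonneg _).trans (hfM 0).1
  have hMb : 0 ≤ Mb := (norm_nonneg _).trans (hb1 0)
  have hd : ContDiff ℝ ∞ (fderiv ℝ f) := hf.fderiv_right (m := ∞) (by simp)
  refine ⟨hd.clm_apply hb, fun x => ?_, fun x => ?_⟩
  · exact ((fderiv ℝ f x).le_opNorm _).trans
      (mul_le_mul (hfM x).2.1 (hb1 x) (norm_nonneg _) hM)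
  · have h1 := (hd.differentiable (by simp) x).hasFDerivAt.clm_apply
      (hb.differentiable (by simp) x).hasFDerivAt
    rw [h1.fderiv]
    refine ContinuousLinearMap.opNorm_le_bound _ (by positivity) fun u => ?_
    simp only [add_apply, ContinuousLinearMap.comp_apply, ContinuousLinearMap.flip_apply]
    refine (norm_add_le _ _).trans ?_
    have a1 : ‖fderiv ℝ f x (fderiv ℝ b x u)‖ ≤ M * (Mb * ‖u‖) :=
      ((fderiv ℝ f x).le_opNorm _).trans (mul_le_mul (hfM x).2.1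
        (((fderiv ℝ b x).le_opNorm _).trans (mul_le_mul_of_nonneg_right (hb2 x) (norm_nonneg _)))
        (norm_nonneg _) hM)
    have a2 : ‖fderiv ℝ (fderiv ℝ f) x u (b x)‖ ≤ (M * ‖u‖) * Mb :=
      ((fderiv ℝ (fderiv ℝ f) x u).le_opNorm _).trans (mul_le_mul
        (((fderiv ℝ (fderiv ℝ f) x).le_opNorm _).trans
          (mul_le_mul_of_nonneg_right (hfM x).2.2 (norm_nonneg _)))
        (hb1 x) (norm_nonneg _) (by positivity))
    nlinarith

lemma sig_opNorm (c : Fin 4) : ‖sig c‖ ≤ 1 :=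
  ContinuousLinearMap.opNorm_le_bound _ zero_le_one fun x => by rw [norm_sig, one_mul]

/-- applying `σ_c` to a field -/
lemma sig_field {g : R4 → Sp} {N N' : ℝ} (hg : ContDiff ℝ ∞ g) (h1 : ∀ x, ‖g x‖ ≤ N)
    (h2 : ∀ x, ‖fderiv ℝ g x‖ ≤ N') (c : Fin 4) : (ContDiff ℝ ∞ fun x => sig c (g x)) ∧
      (∀ x, ‖sig c (g x)‖ ≤ N) ∧ ∀ x, ‖fderiv ℝ (fun y => sig c (g y)) x‖ ≤ N' := by
  set L : Sp →L[ℝ] Sp := (sig c).restrictScalars ℝ with hL
  have hLn : ∀ v, ‖L v‖ = ‖v‖ := fun v => norm_sig c v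
  refine ⟨L.contDiff.comp hg, fun x => by rw [norm_sig]; exact h1 x, fun x => ?_⟩
  have h3 : HasFDerivAt (fun y => sig c (g y)) (L.comp (fderiv ℝ g x)) x :=
    L.hasFDerivAt.comp x (hg.differentiable (by simp) x).hasFDerivAt
  rw [h3.fderiv]
  have hN' : 0 ≤ N' := (norm_nonneg _).trans (h2 x)
  refine ContinuousLinearMap.opNorm_le_bound _ hN' fun u => ?_
  rw [ContinuousLinearMap.comp_apply, hLn]
  exact ((fderiv ℝ g x).le_opNorm u).trans (mul_le_mul_of_nonneg_right (h2 x) (norm_nonneg _))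

lemma fderiv_sum_bd {E F : Type*} [NormedAddCommGroup E] [NormedSpace ℝ E]
    [NormedAddCommGroup F] [NormedSpace ℝ F] {ι : Type*} [Fintype ι] {g : ι → E → F} {N : ℝ}
    {x : E} (hg : ∀ c, DifferentiableAt ℝ (g c) x) (h : ∀ c, ‖fderiv ℝ (g c) x‖ ≤ N) :
    ‖fderiv ℝ (fun y => ∑ c, g c y) x‖ ≤ Fintype.card ι * N := by
  have h1 : HasFDerivAt (fun y => ∑ c, g c y) (∑ c, fderiv ℝ (g c) x) x :=
    HasFDerivAt.fun_sum fun c _ => (hg c).hasFDerivAt
  rw [h1.fderiv]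
  refine (norm_sum_le _ _).trans ?_
  have := Finset.sum_le_card_nsmul Finset.univ (fun c => ‖fderiv ℝ (g c) x‖) N (fun c _ => h c)
  simpa using this

variable {D : Data} {Q : Quat D} {M r : ℝ} {u : Fin 3 → ℝ}

/-- derivatives of the eigenspinors -/
def Ff (s : Sol Q M r u) (c : Fin 4) (x : R4) : Sp := fderiv ℝ s.fp x (Q.b c x)
def Gf (s : Sol Q M r u) (c : Fin 4) (x : R4) : Sp := fderiv ℝ s.fm x (Q.b c x)
def z1 (s : Sol Q M r u) (x : R4) : Sp := ∑ c, sig c (Ff s c x)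
def z2 (s : Sol Q M r u) (x : R4) : Sp := ∑ c, sig c (Gf s c x) - s.zm x
/-- coefficients of the partial integration -/
def wf (s : Sol Q M r u) (c : Fin 4) (x : R4) : ℂ := inner ℂ (Ff s c x) (s.fm x)
def Sf (s : Sol Q M r u) (i : Fin 4) (x : R4) : ℂ := ∑ c, ((Q.b c x i : ℝ) : ℂ) * wf s c x

/-- the spinor and the test spinor -/
def ph (s : Sol Q M r u) (x : R4) : Sp := s.α x • s.fp x + s.β x • s.fm x
def ch (s : Sol Q M r u) (x : R4) : Sp := s.β x • s.fm x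
def ph' (s : Sol Q M r u) (x : R4) : Sp := s.α x • z1 s x + s.β x • z2 s x

/-- all coefficients are bounded by `K`, uniformly -/
structure CB (s : Sol Q M r u) (K : ℝ) (x : R4) : Prop where
  fp : ‖s.fp x‖ ≤ K
  fm : ‖s.fm x‖ ≤ K
  F : ∀ c, ‖Ff s c x‖ ≤ K
  G : ∀ c, ‖Gf s c x‖ ≤ K
  z1 : ‖z1 s x‖ ≤ K
  z2 : ‖z2 s x‖ ≤ K
  y1 : ∀ c, ‖fderiv ℝ (H558.z1 s) x (Q.b c x)‖ ≤ K
  y2 : ∀ c, ‖fderiv ℝ (H558.z2 s) x (Q.b c x)‖ ≤ K
  dS : ‖∑ i, fderiv ℝ (Sf s i) x (e i)‖ ≤ K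
  κ : ∀ k, |Q.dv x (s.κ x) k| ≤ K

lemma norm_e_le (i : Fin 4) : ‖e i‖ ≤ 1 := by
  rw [e, pi_norm_le_iff_of_nonneg zero_le_one]
  intro l
  by_cases hl : l = i
  · subst hl; simp
  · simp [hl]

lemma z1_contDiff (s : Sol Q M r u) : ContDiff ℝ ∞ (z1 s) := by
  refine ContDiff.sum fun c _ => ?_
  have h1 : ContDiff ℝ ∞ (Ff s c) :=
    (s.fp_smooth.fderiv_right (m := ∞) (by simp)).clm_apply (Q.b_smooth c)
  exact ((sig c).restrictScalars ℝ).contDiff.comp h1

lemma z2_contDiff (s : Sol Q M r u) : ContDiff ℝ ∞ (z2 s) := by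
  refine ContDiff.sub (ContDiff.sum fun c _ => ?_) s.zm_smooth
  have h1 : ContDiff ℝ ∞ (Gf s c) :=
    (s.fm_smooth.fderiv_right (m := ∞) (by simp)).clm_apply (Q.b_smooth c)
  exact ((sig c).restrictScalars ℝ).contDiff.comp h1

lemma Ff_contDiff (s : Sol Q M r u) (c : Fin 4) : ContDiff ℝ ∞ (Ff s c) :=
  (s.fp_smooth.fderiv_right (m := ∞) (by simp)).clm_apply (Q.b_smooth c)

lemma wf_contDiff (s : Sol Q M r u) (c : Fin 4) : ContDiff ℝ ∞ (wf s c) :=
  (Ff_contDiff s c).inner ℂ s.fm_smooth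

lemma Sf_contDiff (s : Sol Q M r u) (i : Fin 4) : ContDiff ℝ ∞ (Sf s i) :=
  ContDiff.sum fun c _ => (Complex.ofRealCLM.contDiff.comp (b_coord Q c i)).mul (wf_contDiff s c)

lemma exists_CB (Q : Quat D) (M : ℝ) : ∃ K : ℝ, 1 ≤ K ∧ ∀ (r : ℝ) (u : Fin 3 → ℝ)
    (s : Sol Q M r u) (x : R4), CB s K x := by
  choose B1 hB1 hB1' using fun c => per_bdd (Q.b_smooth c).continuous (Q.b_per c)
  choose B2 hB2 hB2' using fun c => per_bdd ((Q.b_smooth c).continuous_fderiv (by simp))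
    (per_fderiv (Q.b_per c))
  have hTp : ∀ k j, Per4 fun x => (Q.T x)⁻¹ k j := fun k j n x => by
    show (Q.T (tr n x))⁻¹ k j = _
    rw [T_tr]
  choose T1 hT1 hT1' using fun k j => per_bdd (inv_contDiff Q k j).continuous (hTp k j)
  obtain ⟨Mb, hMb1, hb1, hb2⟩ : ∃ Mb : ℝ, 1 ≤ Mb ∧ (∀ c x, ‖Q.b c x‖ ≤ Mb) ∧
      ∀ c x, ‖fderiv ℝ (Q.b c) x‖ ≤ Mb := by
    refine ⟨1 + ∑ c, B1 c + ∑ c, B2 c, ?_, fun c x => ?_, fun c x => ?_⟩
    · have p1 : 0 ≤ ∑ c, B1 c := Finset.sum_nonneg fun c _ => (hB1 c).le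
      have p2 : 0 ≤ ∑ c, B2 c := Finset.sum_nonneg fun c _ => (hB2 c).le
      linarith
    · have p2 : 0 ≤ ∑ c, B2 c := Finset.sum_nonneg fun c _ => (hB2 c).le
      have := Finset.single_le_sum (f := B1) (fun c _ => (hB1 c).le) (Finset.mem_univ c)
      have := hB1' c x
      linarith
    · have p1 : 0 ≤ ∑ c, B1 c := Finset.sum_nonneg fun c _ => (hB1 c).le
      have := Finset.single_le_sum (f := B2) (fun c _ => (hB2 c).le) (Finset.mem_univ c)
      have := hB2' c x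
      linarith
  obtain ⟨T0, hT0, hT⟩ : ∃ T0 : ℝ, 1 ≤ T0 ∧ ∀ x k j, |(Q.T x)⁻¹ k j| ≤ T0 := by
    refine ⟨1 + ∑ k, ∑ j, T1 k j, ?_, fun x k j => ?_⟩
    · have p1 : 0 ≤ ∑ k, ∑ j, T1 k j :=
        Finset.sum_nonneg fun k _ => Finset.sum_nonneg fun j _ => (hT1 k j).le
      linarith
    · have a2 : T1 k j ≤ ∑ j, T1 k j :=
        Finset.single_le_sum (f := fun j => T1 k j) (fun j _ => (hT1 k j).le) (Finset.mem_univ j)
      have a3 : ∑ j, T1 k j ≤ ∑ k, ∑ j, T1 k j :=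
        Finset.single_le_sum (f := fun k => ∑ j, T1 k j)
          (fun k _ => Finset.sum_nonneg fun j _ => (hT1 k j).le) (Finset.mem_univ k)
      have := hT1' k j x
      rw [Real.norm_eq_abs] at this
      linarith
  set N : ℝ := 1 + |M| with hN
  have hN1 : 1 ≤ N := by have := abs_nonneg M; linarith
  refine ⟨100 * (N ^ 2 * Mb ^ 2 * T0), ?_, ?_⟩
  · have h1 : 1 ≤ N ^ 2 := one_le_pow₀ hN1
    have h2 : 1 ≤ Mb ^ 2 := one_le_pow₀ hMb1
    have h3 : 1 ≤ N ^ 2 * Mb ^ 2 := one_le_mul_of_one_le_of_one_le h1 h2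
    have h4 : 1 ≤ N ^ 2 * Mb ^ 2 * T0 := one_le_mul_of_one_le_of_one_le h3 hT0
    linarith
  intro r u s x
  have hM : M ≤ N := by have := le_abs_self M; linarith
  have hM0 : 0 ≤ M := (norm_nonneg _).trans (s.fp_bd 0).1
  have hMb0 : 0 ≤ Mb := by linarith
  have hN0 : 0 ≤ N := by linarith
  have hT00 : 0 ≤ T0 := by linarith
  -- comparison of the constants
  have k1 : N ≤ N ^ 2 * Mb ^ 2 * T0 := by
    have h2 : 1 ≤ N * Mb ^ 2 * T0 := by
      have := one_le_mul_of_one_le_of_one_le (one_le_mul_of_one_le_of_one_le hN1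
        (one_le_pow₀ hMb1 (n := 2))) hT0
      exact this
    calc N = N * 1 := (mul_one _).symm
      _ ≤ N * (N * Mb ^ 2 * T0) := mul_le_mul_of_nonneg_left h2 hN0
      _ = _ := by ring
  have k2 : N * Mb ^ 2 ≤ N ^ 2 * Mb ^ 2 * T0 := by
    have h2 : 1 ≤ N * T0 := one_le_mul_of_one_le_of_one_le hN1 hT0
    calc N * Mb ^ 2 = N * Mb ^ 2 * 1 := (mul_one _).symm
      _ ≤ N * Mb ^ 2 * (N * T0) := mul_le_mul_of_nonneg_left h2 (by positivity)
      _ = _ := by ring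
  have k3 : N * Mb ≤ N * Mb ^ 2 := by
    have : Mb ≤ Mb ^ 2 := by nlinarith
    exact mul_le_mul_of_nonneg_left this hN0
  have k4 : N ^ 2 * Mb ^ 2 ≤ N ^ 2 * Mb ^ 2 * T0 := le_mul_of_one_le_right (by positivity) hT0
  have k5 : N * T0 ≤ N ^ 2 * Mb ^ 2 * T0 := by
    have h2 : 1 ≤ N * Mb ^ 2 := one_le_mul_of_one_le_of_one_le hN1 (one_le_pow₀ hMb1)
    calc N * T0 = N * T0 * 1 := (mul_one _).symm
      _ ≤ N * T0 * (N * Mb ^ 2) := mul_le_mul_of_nonneg_left h2 (by positivity)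
      _ = _ := by ring
  have kM : M * Mb ≤ N * Mb := mul_le_mul_of_nonneg_right hM hMb0
  have hFd := fun c => dir_bd s.fp_smooth (Q.b_smooth c) s.fp_bd (hb1 c) (hb2 c)
  have hGd := fun c => dir_bd s.fm_smooth (Q.b_smooth c) s.fm_bd (hb1 c) (hb2 c)
  have hsF := fun c => sig_field (hFd c).1 (hFd c).2.1 (hFd c).2.2 c
  have hsG := fun c => sig_field (hGd c).1 (hGd c).2.1 (hGd c).2.2 c
  -- bounds for z1, z2 and derivatives
  have hz1 : ‖z1 s x‖ ≤ 4 * (M * Mb) := by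
    refine (norm_sum_le _ _).trans ?_
    have := Finset.sum_le_card_nsmul Finset.univ (fun c => ‖sig c (Ff s c x)‖) (M * Mb)
      (fun c _ => (hsF c).2.1 x)
    simpa using this
  have hz2 : ‖z2 s x‖ ≤ 4 * (M * Mb) + M := by
    refine (norm_sub_le _ _).trans (add_le_add ?_ (s.zm_bd x).1)
    refine (norm_sum_le _ _).trans ?_
    have := Finset.sum_le_card_nsmul Finset.univ (fun c => ‖sig c (Gf s c x)‖) (M * Mb)
      (fun c _ => (hsG c).2.1 x)
    simpa using this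
  have hdz1 : ‖fderiv ℝ (z1 s) x‖ ≤ 4 * (2 * (M * Mb)) := by
    have := fderiv_sum_bd (g := fun c y => sig c (fderiv ℝ s.fp y (Q.b c y))) (x := x)
      (fun c => (hsF c).1.differentiable (by simp) x) (fun c => (hsF c).2.2 x)
    have hz : z1 s = fun y => ∑ c, sig c (fderiv ℝ s.fp y (Q.b c y)) := rfl
    rw [hz]
    simpa using this
  have hdz2 : ‖fderiv ℝ (z2 s) x‖ ≤ 4 * (2 * (M * Mb)) + M := by
    have h1 := fderiv_sum_bd (g := fun c y => sig c (fderiv ℝ s.fm y (Q.b c y))) (x := x)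
      (fun c => (hsG c).1.differentiable (by simp) x) (fun c => (hsG c).2.2 x)
    have h2 : fderiv ℝ (z2 s) x = fderiv ℝ (fun y => ∑ c, sig c (fderiv ℝ s.fm y (Q.b c y))) x -
        fderiv ℝ s.zm x := by
      refine fderiv_fun_sub ?_ (s.zm_smooth.differentiable (by simp) x)
      exact DifferentiableAt.fun_sum fun c _ => (hsG c).1.differentiable (by simp) x
    rw [h2]
    refine (norm_sub_le _ _).trans (add_le_add ?_ (s.zm_bd x).2.1)
    simpa using h1
  have hw1 : ∀ c y, ‖wf s c y‖ ≤ M * Mb * M := fun c y =>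
    norm_inner_bd ((hFd c).2.1 y) (s.fm_bd y).1
  have hw2 : ∀ c, ‖fderiv ℝ (wf s c) x‖ ≤ 3 * (M * Mb * M) := by
    intro c
    have h1 : HasFDerivAt (wf s c) _ x := ((Ff_contDiff s c).differentiable (by simp) x).hasFDerivAt.inner
      ℂ (s.fm_smooth.differentiable (by simp) x).hasFDerivAt
    rw [h1.fderiv]
    refine ContinuousLinearMap.opNorm_le_bound _ (by positivity) fun v => ?_
    rw [ContinuousLinearMap.comp_apply]
    simp only [ContinuousLinearMap.prod_apply, fderivInnerCLM_apply]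
    refine (norm_add_le _ _).trans ?_
    have a1 : ‖(inner ℂ (Ff s c x) (fderiv ℝ s.fm x v) : ℂ)‖ ≤ (M * Mb) * (M * ‖v‖) :=
      norm_inner_bd ((hFd c).2.1 x) (((fderiv ℝ s.fm x).le_opNorm _).trans
        (mul_le_mul_of_nonneg_right (s.fm_bd x).2.1 (norm_nonneg _)))
    have a2 : ‖(inner ℂ (fderiv ℝ (Ff s c) x v) (s.fm x) : ℂ)‖ ≤ (2 * (M * Mb) * ‖v‖) * M :=
      norm_inner_bd (((fderiv ℝ (Ff s c) x).le_opNorm _).trans
        (mul_le_mul_of_nonneg_right ((hFd c).2.2 x) (norm_nonneg _))) (s.fm_bd x).1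
    nlinarith
  have hS : ‖∑ i, fderiv ℝ (Sf s i) x (e i)‖ ≤ 64 * (M * Mb * M * Mb) := by
    refine (norm_sum_le _ _).trans ?_
    have h1 : ∀ i ∈ (Finset.univ : Finset (Fin 4)), ‖fderiv ℝ (Sf s i) x (e i)‖ ≤
        16 * (M * Mb * M * Mb) := by
      intro i _
      have h2 : ‖fderiv ℝ (Sf s i) x‖ ≤ Fintype.card (Fin 4) * (4 * (M * Mb * M * Mb)) := by
        refine fderiv_sum_bd (g := fun c y => ((Q.b c y i : ℝ) : ℂ) * wf s c y) (fun c => ?_)
          (fun c => ?_)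
        · exact ((Complex.ofRealCLM.contDiff.comp (b_coord Q c i)).mul
            (wf_contDiff s c)).differentiable (by simp) x
        · have hbi : HasFDerivAt (fun y => ((Q.b c y i : ℝ) : ℂ))
              (Complex.ofRealCLM.comp ((ContinuousLinearMap.proj i).comp (fderiv ℝ (Q.b c) x)))
              x := by
            have h3 := ((Q.b_smooth c).differentiable (by simp) x).hasFDerivAt
            have h4 : HasFDerivAt (fun y => Q.b c y i)
              ((ContinuousLinearMap.proj i : R4 →L[ℝ] ℝ).comp (fderiv ℝ (Q.b c) x)) x :=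
              (ContinuousLinearMap.proj i : R4 →L[ℝ] ℝ).hasFDerivAt.comp x h3
            exact Complex.ofRealCLM.hasFDerivAt.comp x h4
          have h5 := hbi.mul ((wf_contDiff s c).differentiable (by simp) x).hasFDerivAt
          have h6 : (fun y => ((Q.b c y i : ℝ) : ℂ) * wf s c y) =
            (fun y => ((Q.b c y i : ℝ) : ℂ)) * wf s c := rfl
          rw [h6, h5.fderiv]
          refine ContinuousLinearMap.opNorm_le_bound _ (by positivity) fun v => ?_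
          simp only [add_apply, smul_apply, smul_eq_mul, ContinuousLinearMap.comp_apply,
            ContinuousLinearMap.proj_apply, Complex.ofRealCLM_apply]
          refine (norm_add_le _ _).trans ?_
          rw [norm_mul, norm_mul]
          have b1 : ‖((Q.b c x i : ℝ) : ℂ)‖ ≤ Mb := by
            rw [Complex.norm_real]
            exact (norm_le_pi_norm (Q.b c x) i).trans (hb1 c x)
          have b2 : ‖fderiv ℝ (wf s c) x v‖ ≤ 3 * (M * Mb * M) * ‖v‖ :=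
            ((fderiv ℝ (wf s c) x).le_opNorm v).trans
              (mul_le_mul_of_nonneg_right (hw2 c) (norm_nonneg _))
          have b3 : ‖((fderiv ℝ (Q.b c) x v i : ℝ) : ℂ)‖ ≤ Mb * ‖v‖ := by
            rw [Complex.norm_real]
            exact (norm_le_pi_norm _ i).trans (((fderiv ℝ (Q.b c) x).le_opNorm v).trans
              (mul_le_mul_of_nonneg_right (hb2 c x) (norm_nonneg _)))
          have b4 := mul_le_mul b1 b2 (norm_nonneg _) hMb0
          have b5 := mul_le_mul (hw1 c x) b3 (norm_nonneg _) (by positivity)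
          nlinarith
      have h3 := (fderiv ℝ (Sf s i) x).le_opNorm (e i)
      refine h3.trans ?_
      have h4 := mul_le_mul h2 (norm_e_le i) (norm_nonneg _) (by positivity)
      refine h4.trans (le_of_eq ?_)
      simp only [Fintype.card_fin, Nat.cast_ofNat]
      ring
    have h2 := Finset.sum_le_card_nsmul _ _ _ h1
    simp only [Finset.card_univ, Fintype.card_fin, nsmul_eq_mul, Nat.cast_ofNat] at h2
    linarith
  have mm : M * Mb * M * Mb ≤ N ^ 2 * Mb ^ 2 := by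
    have h1 : M * M ≤ N * N := mul_le_mul hM hM hM0 hN0
    have h2 : 0 ≤ Mb ^ 2 := by positivity
    nlinarith
  have yb : ∀ {g : R4 → Sp} {R : ℝ}, ‖fderiv ℝ g x‖ ≤ R → ∀ c, ‖fderiv ℝ g x (Q.b c x)‖ ≤
      R * Mb := by
    intro g R hg c
    exact ((fderiv ℝ g x).le_opNorm _).trans
      (mul_le_mul hg (hb1 c x) (norm_nonneg _) ((norm_nonneg _).trans hg))
  have kMM : M * Mb * Mb ≤ N * Mb ^ 2 := by
    have := mul_le_mul_of_nonneg_right kM hMb0
    nlinarith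
  have kMb : M * Mb ≤ N * Mb ^ 2 := kM.trans k3
  refine ⟨?_, ?_, fun c => ?_, fun c => ?_, ?_, ?_, fun c => ?_, fun c => ?_, ?_, fun k => ?_⟩
  · have := (s.fp_bd x).1; linarith
  · have := (s.fm_bd x).1; linarith
  · have : ‖Ff s c x‖ ≤ M * Mb := (hFd c).2.1 x
    linarith
  · have : ‖Gf s c x‖ ≤ M * Mb := (hGd c).2.1 x
    linarith
  · linarith
  · linarith
  · have := yb hdz1 c
    nlinarith
  · have := yb hdz2 c
    nlinarith
  · linarith
  · have h1 : |Q.dv x (s.κ x) k| ≤ ∑ j, |(Q.T x)⁻¹ k j| * |s.κ x j| := by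
      have : Q.dv x (s.κ x) k = ∑ j, (Q.T x)⁻¹ k j * s.κ x j := rfl
      rw [this]
      refine (Finset.abs_sum_le_sum_abs _ _).trans (le_of_eq ?_)
      simp only [abs_mul]
    have h2 : ∀ j ∈ (Finset.univ : Finset (Fin 3)), |(Q.T x)⁻¹ k j| * |s.κ x j| ≤ T0 * N := by
      intro j _
      exact mul_le_mul (hT x k j) ((s.κ_bd x j).trans hM) (abs_nonneg _) hT00
    have h3 := Finset.sum_le_card_nsmul _ _ _ h2
    simp only [Finset.card_univ, Fintype.card_fin, nsmul_eq_mul, Nat.cast_ofNat] at h3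
    have h4 : T0 * N = N * T0 := mul_comm _ _
    rw [h4] at h3
    have h5 : 0 ≤ N ^ 2 * Mb ^ 2 * T0 := by positivity
    linarith

end Vale.Agent.P247.H558
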