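import Vale.Agent.P247.H574.Sta2

/-!
# Integration by parts for periodic functions on `ℝ⁴`
-/

open scoped ContDiff Topology
open Set MeasureTheory Filter Metric

noncomputable section

namespace Vale.Agent.P247.H558

open Vale.Agent.P247.H74 Vale.Agent.P247.H574

variable {E : Type*} [NormedAddCommGroup E] [NormedSpace ℝ E]

/-- `ℤ⁴`-periodic functions -/
def PerF {E : Type*} (f : R4 → E) : Prop := ∀ (k : Fin 4 → ℤ) x, f (tr k x) = f x

theorem int_der_zero [CompleteSpace E] {f : R4 → E} (hf : ContDiff ℝ 1 f) (hp : PerF f)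
    (i : Fin 4) : ∫ x in Icc (0 : R4) 1, fderiv ℝ f x (e i) = 0 := by
  classical
  have hle : (0 : R4) ≤ 1 := by intro j; simp
  have hc : Continuous fun x => fderiv ℝ f x (e i) :=
    (hf.continuous_fderiv (by simp)).clm_apply continuous_const
  have h := integral_divergence_of_hasFDerivAt_off_countable' (n := 3) (0 : R4) 1 hle
    (fun j => if j = i then f else 0) (fun j x => if j = i then fderiv ℝ f x else 0) ∅
    countable_empty ?_ ?_ ?_
  · have e1 : (∫ x in Icc (0 : R4) 1, ∑ j, (if j = i then fderiv ℝ f x else 0) (Pi.single j 1)) =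
        ∫ x in Icc (0 : R4) 1, fderiv ℝ f x (e i) := by
      congr 1
      funext x
      rw [Finset.sum_eq_single i]
      · simp [e]
      · intro j _ hj
        simp [hj]
      · simp
    rw [← e1]
    rw [h]
    refine Finset.sum_eq_zero fun j _ => ?_
    by_cases hj : j = i
    · subst hj
      simp only [if_true]
      rw [sub_eq_zero]
      refine integral_congr_ae (Eventually.of_forall fun x => ?_)
      show f (Fin.insertNth j _ x) = f (Fin.insertNth j _ x)
      have := hp (Pi.single j 1) (Fin.insertNth j (0 : ℝ) x : R4)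
      have e2 : tr (Pi.single j 1) (Fin.insertNth j (0 : ℝ) x : R4) = Fin.insertNth j (1 : ℝ) x := by
        funext l
        refine Fin.succAboveCases j ?_ (fun m => ?_) l
        · simp [tr]
        · simp [tr, Fin.succAbove_ne]
      rw [e2] at this
      exact this
    · simp [hj]
  · intro j
    by_cases hj : j = i
    · simp only [hj, if_true]
      exact hf.continuous.continuousOn
    · simp only [hj, if_false]
      exact continuousOn_const
  · intro x _ j
    by_cases hj : j = i
    · simp only [hj, if_true]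
      exact (hf.differentiable (by simp) x).hasFDerivAt
    · simp only [hj, if_false]
      exact hasFDerivAt_const _ _
  · refine (Continuous.integrableOn_Icc ?_)
    refine continuous_finsetSum _ fun j _ => ?_
    by_cases hj : j = i
    · simp only [hj, if_true]
      exact hc
    · simp only [hj, if_false]
      simpa using continuous_const

/-- sections of the twisted line bundle -/
def Tw (f : R4 → ℂ) : Prop :=
  ∀ (k : Fin 4 → ℤ) x, f (tr k x) = Complex.exp (2 * Real.pi * Complex.I * k 0 * x 1) * f x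

theorem Tw.conj_mul {f g : R4 → ℂ} (hf : Tw f) (hg : Tw g) :
    PerF fun x => (starRingEnd ℂ) (f x) * g x := by
  intro k x
  show (starRingEnd ℂ) (f (tr k x)) * g (tr k x) = _
  rw [hf, hg, map_mul, ← Complex.exp_conj]
  have h : (starRingEnd ℂ) (2 * Real.pi * Complex.I * k 0 * x 1) =
      -(2 * Real.pi * Complex.I * k 0 * x 1) := by
    simp [show (starRingEnd ℂ) (2 : ℂ) = 2 from Complex.conj_ofNat 2]
  rw [h]
  have h2 : Complex.exp (-(2 * Real.pi * Complex.I * k 0 * x 1)) *
      Complex.exp (2 * Real.pi * Complex.I * k 0 * x 1) = 1 := by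
    rw [← Complex.exp_add]; simp
  linear_combination (starRingEnd ℂ) (f x) * g x * h2

theorem hasFDerivAt_conj {f : R4 → ℂ} {f' : R4 →L[ℝ] ℂ} {x : R4} (hf : HasFDerivAt f f' x) :
    HasFDerivAt (fun y => (starRingEnd ℂ) (f y))
      ((Complex.conjCLE : ℂ ≃L[ℝ] ℂ).toContinuousLinearMap.comp f') x :=
  (Complex.conjCLE : ℂ ≃L[ℝ] ℂ).toContinuousLinearMap.hasFDerivAt.comp x hf

theorem leib {a : R4 → R4 →L[ℝ] ℝ} {f g s : R4 → ℂ} {x : R4} (hf : DifferentiableAt ℝ f x)
    (hg : DifferentiableAt ℝ g x) (hs : DifferentiableAt ℝ s x) (u : R4) :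
    fderiv ℝ (fun x => s x * ((starRingEnd ℂ) (f x) * g x)) x u =
      s x * ((starRingEnd ℂ) (nab a f x u) * g x + (starRingEnd ℂ) (f x) * nab a g x u) +
        fderiv ℝ s x u * ((starRingEnd ℂ) (f x) * g x) := by
  have h1 := hasFDerivAt_conj hf.hasFDerivAt
  have h2 := h1.mul hg.hasFDerivAt
  have h3 := hs.hasFDerivAt.mul h2
  have h4 : (fun x => s x * ((starRingEnd ℂ) (f x) * g x)) =
      s * ((fun y => (starRingEnd ℂ) (f y)) * g) := rfl
  rw [h4, h3.fderiv]
  simp only [Pi.mul_apply, ContinuousLinearMap.add_apply, ContinuousLinearMap.smul_apply, smul_eq_mul,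
    ContinuousLinearMap.comp_apply, nab, map_sub, map_mul, Complex.conj_I, Complex.conj_ofReal,
    ContinuousLinearEquiv.coe_coe, Complex.conjCLE_apply]
  ring

theorem ibp {a : R4 → R4 →L[ℝ] ℝ} {f g s : R4 → ℂ} (hf : ContDiff ℝ 1 f) (hg : ContDiff ℝ 1 g)
    (hs : ContDiff ℝ 1 s) (hp : PerF fun x => s x * ((starRingEnd ℂ) (f x) * g x)) (i : Fin 4) :
    ∫ x in Icc (0 : R4) 1, (s x * ((starRingEnd ℂ) (nab a f x (e i)) * g x +
      (starRingEnd ℂ) (f x) * nab a g x (e i)) +
        fderiv ℝ s x (e i) * ((starRingEnd ℂ) (f x) * g x)) = 0 := by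
  have hc : ContDiff ℝ 1 fun x => s x * ((starRingEnd ℂ) (f x) * g x) := by
    refine hs.mul (ContDiff.mul ?_ hg)
    exact (Complex.conjCLE : ℂ ≃L[ℝ] ℂ).contDiff.comp hf
  rw [← int_der_zero hc hp i]
  congr 1
  funext x
  rw [leib (a := a) (hf.differentiable (by simp) x) (hg.differentiable (by simp) x)
    (hs.differentiable (by simp) x)]

end Vale.Agent.P247.H558
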