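import Vale.Agent.P247.H558.Spin
import Vale.Agent.P247.H558.Per

/-!
# Calculus of the covariant derivative
-/

open scoped ContDiff Topology
open Set MeasureTheory Filter Metric

noncomputable section

namespace Vale.Agent.P247.H558

open Vale.Agent.P247.H74 Vale.Agent.P247.H574 Vale.Agent.P247.H647

section gen

variable {E : Type*} [NormedAddCommGroup E] [NormedSpace ℂ E]
variable (A : R4 → R4 →L[ℝ] ℝ)

lemma cov_add_vec (s : R4 → E) (x u v : R4) : cov A s x (u + v) = cov A s x u + cov A s x v := by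
  simp only [cov, map_add, Complex.ofReal_add, mul_add, add_smul]
  abel

lemma cov_smul_vec (s : R4 → E) (x u : R4) (c : ℝ) :
    cov A s x (c • u) = (c : ℂ) • cov A s x u := by
  simp only [cov, map_smul, smul_eq_mul, Complex.ofReal_mul, smul_sub]
  rw [smul_smul]
  congr 1
  congr 1
  ring

lemma cov_sum_vec {ι : Type*} (S : Finset ι) (s : R4 → E) (x : R4) (v : ι → R4) :
    cov A s x (∑ i ∈ S, v i) = ∑ i ∈ S, cov A s x (v i) := by
  classical
  induction S using Finset.induction_on with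
  | empty => simp [cov]
  | insert i S hi ih => rw [Finset.sum_insert hi, Finset.sum_insert hi, cov_add_vec, ih]

lemma cov_rsmul {h : R4 → ℝ} {s : R4 → E} {x : R4} (hh : DifferentiableAt ℝ h x)
    (hs : DifferentiableAt ℝ s x) (u : R4) :
    cov A (fun y => (h y : ℂ) • s y) x u =
      ((fderiv ℝ h x u : ℝ) : ℂ) • s x + (h x : ℂ) • cov A s x u := by
  have h1 : (fun y => (h y : ℂ) • s y) = fun y => h y • s y := by
    funext y; exact Complex.coe_smul _ _
  rw [cov, h1, cov]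
  have h2 : HasFDerivAt (fun y => h y • s y) (h x • fderiv ℝ s x +
      (fderiv ℝ h x).smulRight (s x)) x := hh.hasFDerivAt.smul hs.hasFDerivAt
  rw [h2.fderiv]
  simp only [add_apply, smul_apply, ContinuousLinearMap.smulRight_apply]
  rw [← Complex.coe_smul, ← Complex.coe_smul, smul_sub, smul_smul, smul_smul,
    mul_comm (h x : ℂ)]
  abel

lemma cov_csmul {f : R4 → ℂ} {s : R4 → E} {x : R4} (hf : DifferentiableAt ℝ f x)
    (hs : DifferentiableAt ℝ s x) (u : R4) :
    cov A (fun y => f y • s y) x u = cov A f x u • s x + f x • fderiv ℝ s x u := by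
  have h2 : HasFDerivAt (fun y => f y • s y) (f x • fderiv ℝ s x +
      (fderiv ℝ f x).smulRight (s x)) x := hf.hasFDerivAt.smul hs.hasFDerivAt
  rw [cov, h2.fderiv, cov]
  simp only [add_apply, smul_apply, ContinuousLinearMap.smulRight_apply,
    smul_eq_mul, sub_smul, smul_smul]
  abel

lemma cov_clm {Z : R4 → E →L[ℂ] E} {s : R4 → E} {x : R4} (hZ : DifferentiableAt ℝ Z x)
    (hs : DifferentiableAt ℝ s x) (u : R4) :
    cov A (fun y => Z y (s y)) x u = (fderiv ℝ Z x u) (s x) + Z x (cov A s x u) := by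
  have h1 : HasFDerivAt (fun y => ContinuousLinearMap.restrictScalarsL ℂ E E ℝ ℝ (Z y))
      ((ContinuousLinearMap.restrictScalarsL ℂ E E ℝ ℝ).comp (fderiv ℝ Z x)) x :=
    (ContinuousLinearMap.restrictScalarsL ℂ E E ℝ ℝ).hasFDerivAt.comp x hZ.hasFDerivAt
  have h2 := h1.clm_apply hs.hasFDerivAt
  have h3 : (fun y => Z y (s y)) =
      fun y => (ContinuousLinearMap.restrictScalarsL ℂ E E ℝ ℝ (Z y)) (s y) := rfl
  rw [cov, h3, h2.fderiv, cov, map_sub, map_smul]
  simp
  abel

lemma cov_contDiff {s : R4 → E} (hA : ContDiff ℝ ∞ A) (hs : ContDiff ℝ ∞ s) {b : R4 → R4}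
    (hb : ContDiff ℝ ∞ b) : ContDiff ℝ ∞ fun x => cov A s x (b x) := by
  unfold cov
  refine ContDiff.sub ?_ (ContDiff.smul (contDiff_const.mul ?_) hs)
  · exact (hs.fderiv_right (m := ∞) (by simp)).clm_apply hb
  · exact Complex.ofRealCLM.contDiff.comp (hA.clm_apply hb)

end gen

/-- derivative of the square of the norm -/
lemma fderiv_normSq (A : R4 → R4 →L[ℝ] ℝ) {ψ : R4 → Sp} {x : R4} (hψ : DifferentiableAt ℝ ψ x)
    (u : R4) : fderiv ℝ (fun y => ‖ψ y‖ ^ 2) x u = 2 * (inner ℂ (cov A ψ x u) (ψ x)).re := by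
  have h1 : (fun y => ‖ψ y‖ ^ 2) = fun y => (inner ℂ (ψ y) (ψ y)).re := by
    funext y
    rw [inner_self_eq_norm_sq_to_K]
    norm_cast
  have h2 : HasFDerivAt (fun y => ‖ψ y‖ ^ 2) (2 • (innerSL ℝ (ψ x)).comp (fderiv ℝ ψ x)) x := by
    exact hψ.hasFDerivAt.norm_sq
  rw [h2.fderiv]
  rw [cov, inner_sub_left, inner_smul_left]
  simp only [ContinuousLinearMap.comp_apply, innerSL_apply_apply, map_mul, Complex.conj_I,
    Complex.conj_ofReal, smul_apply, nsmul_eq_mul, Nat.cast_ofNat]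
  have h3 : inner ℝ (ψ x) (fderiv ℝ ψ x u) = (inner ℂ (fderiv ℝ ψ x u) (ψ x)).re := by
    rw [inner_sp]
    simp [PiLp.inner_apply, Fin.sum_univ_two, Complex.inner]
  have h4 : (-Complex.I * (A x u : ℂ) * inner ℂ (ψ x) (ψ x)).re = 0 := by
    rw [inner_self_eq_norm_sq_to_K]
    have : (-Complex.I * (A x u : ℂ) * ((‖ψ x‖ : ℂ) ^ 2)) =
        ((-(A x u) * ‖ψ x‖ ^ 2 : ℝ) : ℂ) * Complex.I := by
      push_cast; ring
    refine (congrArg Complex.re this).trans ?_
    rw [Complex.re_ofReal_mul]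
    simp
  rw [Complex.sub_re, h4, h3, sub_zero]

end Vale.Agent.P247.H558
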