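import Vale.Agent.P247.H558.Rho

/-!
# The divergence term of the maximum principle
-/

open scoped ContDiff Topology
open Set MeasureTheory Filter Metric

noncomputable section

namespace Vale.Agent.P247.H558

open Vale.Agent.P247.H74 Vale.Agent.P247.H574 Vale.Agent.P247.H647

lemma per_bdd {E : Type*} [NormedAddCommGroup E] {g : R4 → E} (hg : Continuous g) (hp : Per4 g) :
    ∃ C, 0 < C ∧ ∀ x, ‖g x‖ ≤ C := by
  obtain ⟨C, hC⟩ := (isCompact_Icc : IsCompact (Icc (0 : R4) 1)).exists_bound_of_continuousOn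
    hg.continuousOn
  refine ⟨|C| + 1, by positivity, fun x => ?_⟩
  obtain ⟨k, hk⟩ := exists_tr_cube x
  rw [← hp k x]
  exact (hC _ hk).trans ((le_abs_self C).trans (by linarith))

lemma per_fderiv {E : Type*} [NormedAddCommGroup E] [NormedSpace ℝ E] {g : R4 → E} (hp : Per4 g) :
    Per4 (fderiv ℝ g) := by
  intro k x
  have h1 : (fun y : R4 => g (y + fun j => (k j : ℝ))) = g := funext fun y => hp k y
  have h2 := fderiv_comp_add_right (𝕜 := ℝ) (f := g) (x := x) (fun j => (k j : ℝ))
  rw [h1] at h2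
  exact h2.symm

lemma fderiv_vec {E : Type*} [NormedAddCommGroup E] [NormedSpace ℝ E] (L : R4 →L[ℝ] E) (v : R4) :
    L v = ∑ i, v i • L (e i) := by
  conv_lhs => rw [← Finset.univ_sum_single v]
  rw [map_sum]
  refine Finset.sum_congr rfl fun i _ => ?_
  have : (Pi.single i (v i) : R4) = v i • e i := by
    rw [e, ← Pi.single_smul, smul_eq_mul, mul_one]
  rw [this, map_smul]

variable {D : Data} (Q : Quat D)

/-- the coefficients of the frame Laplacian -/
def Gm (i j : Fin 4) (x : R4) : ℝ := ∑ c, Q.b c x i * Q.b c x j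

lemma b_coord (c i : Fin 4) : ContDiff ℝ ∞ fun x => Q.b c x i :=
  contDiff_pi.1 (Q.b_smooth c) i

lemma Gm_contDiff (i j : Fin 4) : ContDiff ℝ ∞ (Gm Q i j) :=
  ContDiff.sum fun c _ => (b_coord Q c i).mul (b_coord Q c j)

lemma Gm_per (i j : Fin 4) : Per4 (Gm Q i j) := by
  intro k x
  simp only [Gm, Q.b_per _ k x]

/-- the field whose divergence is used -/
def Xf (v : V3) (i : Fin 4) (x : R4) : ℝ := ∑ j, Gm Q i j x * fderiv ℝ (Q.rho v) x (e j)

lemma drho_contDiff (v : V3) (j : Fin 4) :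
    ContDiff ℝ ∞ fun x => fderiv ℝ (Q.rho v) x (e j) :=
  ((rho_contDiff Q v).fderiv_right (m := ∞) (by simp)).clm_apply contDiff_const

lemma Xf_contDiff (v : V3) (i : Fin 4) : ContDiff ℝ ∞ (Xf Q v i) :=
  ContDiff.sum fun j _ => (Gm_contDiff Q i j).mul (drho_contDiff Q v j)

lemma Xf_per (v : V3) (i : Fin 4) : Per4 (Xf Q v i) := by
  intro k x
  have h : Per4 (Q.rho v) := fun k x => rho_tr Q k x v
  simp only [Xf, Gm_per Q _ _ k x, per_fderiv h k x]

lemma div_bound : ∃ C : ℝ, 0 < C ∧ ∀ v : V3, ∃ d : R4 → ℝ, Continuous d ∧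
    (∀ x, |d x| ≤ C * len v) ∧ ∀ h : R4 → ℝ, ContDiff ℝ ∞ h → Per4 h →
      ∫ x in cube, (∑ c, fderiv ℝ h x (Q.b c x) * fderiv ℝ (Q.rho v) x (Q.b c x) + h x * d x)
        = 0 := by
  obtain ⟨C0, hC0, hb⟩ := rho_bounds Q
  choose G1 hG1 hG1' using fun i j => per_bdd (Gm_contDiff Q i j).continuous (Gm_per Q i j)
  choose G2 hG2 hG2' using fun i j => per_bdd
    ((Gm_contDiff Q i j).continuous_fderiv (by simp)) (per_fderiv (Gm_per Q i j))
  refine ⟨∑ i, ∑ j, (G2 i j * C0 + G1 i j * C0) , ?_, fun v => ?_⟩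
  · refine Finset.sum_pos (fun i _ => Finset.sum_pos (fun j _ => ?_) ⟨0, Finset.mem_univ _⟩)
      ⟨0, Finset.mem_univ _⟩
    have := hG1 i j; have := hG2 i j
    positivity
  refine ⟨fun x => ∑ i, fderiv ℝ (Xf Q v i) x (e i), ?_, fun x => ?_, fun h hh hp => ?_⟩
  · refine continuous_finsetSum _ fun i _ => ?_
    exact ((Xf_contDiff Q v i).continuous_fderiv (by simp)).clm_apply continuous_const
  · refine (Finset.abs_sum_le_sum_abs _ _).trans ?_
    rw [Finset.sum_mul]
    refine Finset.sum_le_sum fun i _ => ?_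
    have hd : fderiv ℝ (Xf Q v i) x (e i) = ∑ j, (fderiv ℝ (Gm Q i j) x (e i) *
        fderiv ℝ (Q.rho v) x (e j) +
          Gm Q i j x * fderiv ℝ (fun y => fderiv ℝ (Q.rho v) y (e j)) x (e i)) := by
      have h1 : HasFDerivAt (Xf Q v i) (∑ j, (Gm Q i j x •
          fderiv ℝ (fun y => fderiv ℝ (Q.rho v) y (e j)) x +
            fderiv ℝ (Q.rho v) x (e j) • fderiv ℝ (Gm Q i j) x)) x := by
        refine HasFDerivAt.fun_sum fun j _ => ?_
        exact ((Gm_contDiff Q i j).differentiable (by simp) x).hasFDerivAt.mul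
          ((drho_contDiff Q v j).differentiable (by simp) x).hasFDerivAt
      rw [h1.fderiv, sum_apply]
      refine Finset.sum_congr rfl fun j _ => ?_
      simp only [add_apply, smul_apply, smul_eq_mul]
      ring
    rw [hd]
    refine (Finset.abs_sum_le_sum_abs _ _).trans ?_
    rw [Finset.sum_mul]
    refine Finset.sum_le_sum fun j _ => ?_
    refine (abs_add_le _ _).trans ?_
    rw [abs_mul, abs_mul, add_mul]
    have he : ‖e i‖ ≤ 1 := by
      rw [e, pi_norm_le_iff_of_nonneg zero_le_one]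
      intro l
      by_cases hl : l = i
      · subst hl; simp
      · simp [hl]
    have a1 : |fderiv ℝ (Gm Q i j) x (e i)| ≤ G2 i j := by
      have := (fderiv ℝ (Gm Q i j) x).le_opNorm (e i)
      rw [Real.norm_eq_abs] at this
      refine this.trans ?_
      calc _ ≤ G2 i j * 1 := mul_le_mul (hG2' i j x) he (norm_nonneg _) (hG2 i j).le
        _ = _ := mul_one _
    have a2 : |Gm Q i j x| ≤ G1 i j := by
      have := hG1' i j x
      rwa [Real.norm_eq_abs] at this
    have a3 := (hb v x).2.1 j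
    have a4 := (hb v x).2.2 j i
    refine add_le_add ?_ ?_
    · calc _ ≤ G2 i j * (C0 * len v) :=
            mul_le_mul a1 a3 (abs_nonneg _) (hG2 i j).le
        _ = _ := by ring
    · calc _ ≤ G1 i j * (C0 * len v) :=
            mul_le_mul a2 a4 (abs_nonneg _) (hG1 i j).le
        _ = _ := by ring
  · have h1 : ∀ i, ∫ x in cube, fderiv ℝ (fun y => h y * Xf Q v i y) x (e i) = 0 := by
      intro i
      refine int_der_zero ((hh.mul (Xf_contDiff Q v i)).of_le (by simp)) ?_ i
      intro k x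
      show h (tr k x) * Xf Q v i (tr k x) = h x * Xf Q v i x
      rw [hp k x, Xf_per Q v i k x]
    have h2 : ∀ x, (∑ c, fderiv ℝ h x (Q.b c x) * fderiv ℝ (Q.rho v) x (Q.b c x)
        + h x * ∑ i, fderiv ℝ (Xf Q v i) x (e i)) =
        ∑ i, fderiv ℝ (fun y => h y * Xf Q v i y) x (e i) := by
      intro x
      have h3 : ∀ i, fderiv ℝ (fun y => h y * Xf Q v i y) x (e i) =
          fderiv ℝ h x (e i) * Xf Q v i x + h x * fderiv ℝ (Xf Q v i) x (e i) := by
        intro i
        rw [fderiv_fun_mul (hh.differentiable (by simp) x)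
          ((Xf_contDiff Q v i).differentiable (by simp) x)]
        simp only [add_apply, smul_apply, smul_eq_mul]
        ring
      simp only [h3]
      rw [Finset.sum_add_distrib, ← Finset.mul_sum]
      congr 1
      have h4 : ∀ c, fderiv ℝ h x (Q.b c x) * fderiv ℝ (Q.rho v) x (Q.b c x) =
          ∑ i, ∑ j, (fderiv ℝ h x (e i) * (Q.b c x i * Q.b c x j *
            fderiv ℝ (Q.rho v) x (e j))) := by
        intro c
        rw [fderiv_vec (fderiv ℝ h x) (Q.b c x), fderiv_vec (fderiv ℝ (Q.rho v) x) (Q.b c x),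
          Finset.sum_mul_sum]
        refine Finset.sum_congr rfl fun i _ => Finset.sum_congr rfl fun j _ => ?_
        simp only [smul_eq_mul]
        ring
      simp only [h4]
      rw [Finset.sum_comm]
      refine Finset.sum_congr rfl fun i _ => ?_
      rw [Finset.sum_comm, Xf, Finset.mul_sum]
      refine Finset.sum_congr rfl fun j _ => ?_
      rw [Gm, Finset.sum_mul, Finset.mul_sum]
    simp only [h2]
    rw [integral_finsetSum]
    · exact Finset.sum_eq_zero fun i _ => h1 i
    · intro i _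
      refine Continuous.integrableOn_Icc ?_
      exact (((hh.mul (Xf_contDiff Q v i)).continuous_fderiv (by simp)).clm_apply
        continuous_const)

end Vale.Agent.P247.H558
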