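import Vale.Agent.P247.H558.Div

/-!
# The maximum principle `MAX_statement`
-/

open scoped ContDiff Topology
open Set MeasureTheory Filter Metric

noncomputable section

namespace Vale.Agent.P247.H558

open Vale.Agent.P247.H74 Vale.Agent.P247.H574 Vale.Agent.P247.H647

lemma nonneg_int_zero {g : R4 → ℝ} (hg : Continuous g) (hp : Per4 g) (h0 : ∀ x, 0 ≤ g x)
    (hi : ∫ x in cube, g x ≤ 0) (x : R4) : g x = 0 := by
  by_contra hx
  have hx' : 0 < g x := lt_of_le_of_ne (h0 x) (Ne.symm hx)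
  obtain ⟨k, hk⟩ := exists_tr_cube x
  have hxk : 0 < g (tr k x) := by rw [hp k x]; exact hx'
  have hcl : closure (interior cube) = cube := by
    rw [cube]
    have h1 : (Icc (0 : R4) 1) = Set.pi univ fun _ => Icc (0 : ℝ) 1 := by
      rw [← pi_univ_Icc]; rfl
    rw [h1, interior_pi_set finite_univ]
    simp [closure_pi_set]
  have hmem : tr k x ∈ closure (interior cube) := by rw [hcl]; exact hk
  have hop : IsOpen {y | 0 < g y} := isOpen_lt continuous_const hg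
  obtain ⟨y, hy1, hy2⟩ := mem_closure_iff.1 hmem _ hop hxk
  have hint : IntegrableOn g cube := hg.integrableOn_Icc
  have h3 : 0 < ∫ x in cube, g x := by
    rw [setIntegral_pos_iff_support_of_nonneg_ae (Eventually.of_forall fun x => h0 x) hint]
    have hs : {y | 0 < g y} ∩ interior cube ⊆ Function.support g ∩ cube := by
      rintro z ⟨hz1, hz2⟩
      exact ⟨ne_of_gt hz1, interior_subset hz2⟩
    refine lt_of_lt_of_le ?_ (measure_mono hs)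
    exact (hop.inter isOpen_interior).measure_pos volume ⟨y, hy1, hy2⟩
  linarith

variable {D : Data} {Q : Quat D}

/-- the curvature in the frame -/
lemma Fh_eq (hF : FRM_statement) {A : R4 → R4 →L[ℝ] ℝ} {φ : R4 → Sp} {r : ℝ} {w : V3} {x : R4}
    {κ : V3}
    (h : ∀ j, w4 (fun p q => dd A x p q) (fun p q => (tri D j).val x p q) =
      r * (w j - (1 / 2) * ∑ k, Q.T x j k * (inner ℂ (φ x) (pau k (φ x))).re) + κ j) (k : Fin 3) :
    Q.Fh A x k = r * (Q.dv x w k - (1 / 2) * pv (φ x) k) + Q.dv x κ k := by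
  have hself : ∀ p, dd A x p p = 0 := by intro p; simp [dd]
  have h1 := (hF D Q x).2.1 (dd A x) hself
  have h2 : (Q.T x).mulVec (fun k => Q.Fh A x k + r * ((1 / 2) * pv (φ x) k)) = r • w + κ := by
    funext j
    have := (h1 j).symm.trans (h j)
    simp only [Matrix.mulVec, dotProduct, mul_add, Finset.sum_add_distrib]
    have e1 : ∑ k, Q.T x j k * Q.Fh A x k =
        r * (w j - (1 / 2) * ∑ k, Q.T x j k * (inner ℂ (φ x) (pau k (φ x))).re) + κ j := this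
    rw [e1]
    have e2 : ∑ k, Q.T x j k * (r * ((1 / 2) * pv (φ x) k)) =
        r * ((1 / 2) * ∑ k, Q.T x j k * (inner ℂ (φ x) (pau k (φ x))).re) := by
      rw [Finset.mul_sum, Finset.mul_sum]
      refine Finset.sum_congr rfl fun k _ => ?_
      rw [pv]
      ring
    rw [e2]
    simp only [Pi.add_apply, Pi.smul_apply, smul_eq_mul]
    ring
  have h3 := congrArg (fun u => Q.dv x u k) h2
  simp only [dv_T] at h3
  have h4 : Q.dv x (r • w + κ) k = r * Q.dv x w k + Q.dv x κ k := by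
    simp only [Quat.dv, Matrix.mulVec_add, Matrix.mulVec_smul, Pi.add_apply, Pi.smul_apply,
      smul_eq_mul]
  rw [h4] at h3
  linarith

lemma re_inner_rsmul (c : ℝ) (a b : Sp) : (inner ℂ a ((c : ℂ) • b)).re = c * (inner ℂ a b).re := by
  rw [inner_smul_right, Complex.re_ofReal_mul]

lemma abs_re_inner_le (a b : Sp) : |(inner ℂ a b).re| ≤ ‖a‖ * ‖b‖ :=
  (Complex.abs_re_le_norm _).trans (norm_inner_le_norm a b)

/-- pointwise inequality -/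
lemma pw {M h ρ : ℝ} (hM : 1 ≤ M) (hh : 0 ≤ h) (ψ : Sp) (n : Fin 4 → Sp) (B Zd : Fin 4 → En)
    (Z : En) (δ dh : Fin 4 → ℝ) (F nn : Fin 3 → ℝ) (hB : ∀ c, ‖B c‖ ≤ M) (hZd : ∀ c, ‖Zd c‖ ≤ M)
    (hZ : ‖Z‖ ≤ M) (hδ : ∀ c, |δ c| ≤ M) (hF : ∀ k, F k = nn k - (1 / 2) * pv ψ k)
    (hρ : ρ = 2 * len nn) :
    ∑ c, dh c * (inner ℂ (n c) ψ).re +
      h * ((1 / 2) * ‖ψ‖ ^ 2 * (‖ψ‖ ^ 2 - ρ) - 4 * (2 * M ^ 2 + M) * ‖ψ‖ ^ 2) ≤
    (∑ c, inner ℂ (n c) ((dh c : ℂ) • ψ + (h : ℂ) • n c)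
        - ∑ k, (F k : ℂ) * inner ℂ (pau k ψ) ((h : ℂ) • ψ)
        + ∑ c, inner ℂ (B c (n c)) ((h : ℂ) • ψ)).re +
      (∑ c, inner ℂ (-(Zd c ψ + Z (n c)) + (δ c : ℂ) • (-(Z ψ))) (sig c ((h : ℂ) • ψ))).re := by
  have hM0 : 0 ≤ M := zero_le_one.trans hM
  have hp : 0 ≤ ‖ψ‖ := norm_nonneg ψ
  have e1 : (∑ c, inner ℂ (n c) ((dh c : ℂ) • ψ + (h : ℂ) • n c)).re =
      ∑ c, dh c * (inner ℂ (n c) ψ).re + h * ∑ c, ‖n c‖ ^ 2 := by
    rw [Complex.re_sum, Finset.mul_sum, ← Finset.sum_add_distrib]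
    refine Finset.sum_congr rfl fun c _ => ?_
    rw [inner_add_right, Complex.add_re, re_inner_rsmul, re_inner_rsmul]
    congr 2
    rw [inner_self_eq_norm_sq_to_K]
    norm_cast
  have e2 : (∑ k, (F k : ℂ) * inner ℂ (pau k ψ) ((h : ℂ) • ψ)).re = h * ∑ k, F k * pv ψ k := by
    rw [Complex.re_sum, Finset.mul_sum]
    refine Finset.sum_congr rfl fun k _ => ?_
    rw [Complex.re_ofReal_mul, re_inner_rsmul, pau_symm, pv]
    ring
  have e3 : ∑ k, F k * pv ψ k ≤ (ρ / 2) * ‖ψ‖ ^ 2 - (1 / 2) * ‖ψ‖ ^ 4 := by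
    have h1 : ∑ k, F k * pv ψ k = ∑ k, nn k * pv ψ k - (1 / 2) * ∑ k, pv ψ k ^ 2 := by
      rw [Finset.mul_sum, ← Finset.sum_sub_distrib]
      refine Finset.sum_congr rfl fun k _ => ?_
      rw [hF]
      ring
    rw [h1, pv_sq]
    have := dot_pv_le nn ψ
    rw [hρ]
    linarith
  have e4 : ∀ c, -(h * (M * ‖n c‖ * ‖ψ‖)) ≤ (inner ℂ (B c (n c)) ((h : ℂ) • ψ)).re := by
    intro c
    rw [re_inner_rsmul]
    have h1 := abs_re_inner_le (B c (n c)) ψ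
    have h2 : ‖B c (n c)‖ ≤ M * ‖n c‖ :=
      ((B c).le_opNorm _).trans (mul_le_mul_of_nonneg_right (hB c) (norm_nonneg _))
    have h3 : |(inner ℂ (B c (n c)) ψ).re| ≤ M * ‖n c‖ * ‖ψ‖ :=
      h1.trans (mul_le_mul_of_nonneg_right h2 hp)
    have h4 := (abs_le.1 h3).1
    nlinarith
  have e5 : ∀ c, -(h * ((M * ‖ψ‖ + M * ‖n c‖ + M * (M * ‖ψ‖)) * ‖ψ‖)) ≤
      (inner ℂ (-(Zd c ψ + Z (n c)) + (δ c : ℂ) • (-(Z ψ))) (sig c ((h : ℂ) • ψ))).re := by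
    intro c
    rw [map_smul, re_inner_rsmul]
    have h1 := abs_re_inner_le (-(Zd c ψ + Z (n c)) + (δ c : ℂ) • (-(Z ψ))) (sig c ψ)
    rw [norm_sig] at h1
    have h2 : ‖-(Zd c ψ + Z (n c)) + (δ c : ℂ) • (-(Z ψ))‖ ≤
        M * ‖ψ‖ + M * ‖n c‖ + M * (M * ‖ψ‖) := by
      refine (norm_add_le _ _).trans (add_le_add ?_ ?_)
      · rw [norm_neg]
        refine (norm_add_le _ _).trans (add_le_add ?_ ?_)
        · exact ((Zd c).le_opNorm _).trans (mul_le_mul_of_nonneg_right (hZd c) hp)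
        · exact (Z.le_opNorm _).trans (mul_le_mul_of_nonneg_right hZ (norm_nonneg _))
      · rw [norm_smul, norm_neg]
        refine mul_le_mul ?_ ?_ (norm_nonneg _) hM0
        · simpa using hδ c
        · exact (Z.le_opNorm _).trans (mul_le_mul_of_nonneg_right hZ hp)
    have h3 := (abs_le.1 (h1.trans (mul_le_mul_of_nonneg_right h2 hp))).1
    nlinarith
  rw [Complex.add_re, Complex.sub_re, e1, e2, Complex.re_sum, Complex.re_sum]
  have s4 : -(h * ∑ c, M * ‖n c‖ * ‖ψ‖) ≤ ∑ c, (inner ℂ (B c (n c)) ((h : ℂ) • ψ)).re := by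
    rw [Finset.mul_sum, ← Finset.sum_neg_distrib]
    exact Finset.sum_le_sum fun c _ => e4 c
  have s5 : -(h * ∑ c, (M * ‖ψ‖ + M * ‖n c‖ + M * (M * ‖ψ‖)) * ‖ψ‖) ≤
      ∑ c, (inner ℂ (-(Zd c ψ + Z (n c)) + (δ c : ℂ) • (-(Z ψ))) (sig c ((h : ℂ) • ψ))).re := by
    rw [Finset.mul_sum, ← Finset.sum_neg_distrib]
    exact Finset.sum_le_sum fun c _ => e5 c
  have s6 : -(4 * (2 * M ^ 2 + M) * ‖ψ‖ ^ 2) ≤ ∑ c, ‖n c‖ ^ 2 - ∑ c, M * ‖n c‖ * ‖ψ‖ -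
      ∑ c, (M * ‖ψ‖ + M * ‖n c‖ + M * (M * ‖ψ‖)) * ‖ψ‖ := by
    rw [← Finset.sum_sub_distrib, ← Finset.sum_sub_distrib]
    have h1 : ∀ c ∈ (Finset.univ : Finset (Fin 4)), -((2 * M ^ 2 + M) * ‖ψ‖ ^ 2) ≤
        ‖n c‖ ^ 2 - M * ‖n c‖ * ‖ψ‖ - (M * ‖ψ‖ + M * ‖n c‖ + M * (M * ‖ψ‖)) * ‖ψ‖ := by
      intro c _
      nlinarith [sq_nonneg (‖n c‖ - M * ‖ψ‖)]
    have h2 := Finset.card_nsmul_le_sum _ _ _ h1
    simp only [Finset.card_univ, Fintype.card_fin, nsmul_eq_mul, Nat.cast_ofNat] at h2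
    linarith
  have s7 := mul_le_mul_of_nonneg_left s6 hh
  have s8 := mul_le_mul_of_nonneg_left e3 hh
  nlinarith

lemma qs_rsmul {h : R4 → ℝ} {ψ : R4 → Sp} (hh : Per4 h) (hψ : QS ψ) :
    QS fun x => (h x : ℂ) • ψ x := by
  intro k x
  show (h (tr k x) : ℂ) • ψ (tr k x) = _
  rw [hh k x, hψ k x, smul_comm]

lemma qs_clm {Z : R4 → En} {ψ : R4 → Sp} (hZ : Per4 Z) (hψ : QS ψ) : QS fun x => Z x (ψ x) := by
  intro k x
  show Z (tr k x) (ψ (tr k x)) = _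
  rw [hZ k x, hψ k x, map_smul]

lemma qs_neg {ψ : R4 → Sp} (hψ : QS ψ) : QS fun x => -ψ x := by
  intro k x
  show -ψ (tr k x) = _
  rw [hψ k x, smul_neg]

lemma per_normSq {ψ : R4 → Sp} (hψ : QS ψ) : Per4 fun x => ‖ψ x‖ ^ 2 := by
  intro k x
  show ‖ψ (tr k x)‖ ^ 2 = _
  rw [hψ k x, norm_smul]
  have : ‖Complex.exp (2 * Real.pi * Complex.I * k 0 * x 1)‖ = 1 := by
    have h : (2 * Real.pi * Complex.I * k 0 * x 1 : ℂ) =
        ((2 * Real.pi * k 0 * x 1 : ℝ) : ℂ) * Complex.I := by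
      push_cast; ring
    rw [h, Complex.norm_exp_ofReal_mul_I]
  rw [this, one_mul]

lemma contDiff_rsmul {h : R4 → ℝ} {ψ : R4 → Sp} (hh : ContDiff ℝ ∞ h) (hψ : ContDiff ℝ ∞ ψ) :
    ContDiff ℝ ∞ fun x => (h x : ℂ) • ψ x :=
  (Complex.ofRealCLM.contDiff.comp hh).smul hψ

lemma contDiff_clm {Z : R4 → En} {ψ : R4 → Sp} (hZ : ContDiff ℝ ∞ Z) (hψ : ContDiff ℝ ∞ ψ) :
    ContDiff ℝ ∞ fun x => Z x (ψ x) := by
  have h1 : ContDiff ℝ ∞ fun x => ContinuousLinearMap.restrictScalarsL ℂ Sp Sp ℝ ℝ (Z x) :=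
    (ContinuousLinearMap.restrictScalarsL ℂ Sp Sp ℝ ℝ).contDiff.comp hZ
  exact h1.clm_apply hψ

lemma cov_neg' {A : R4 → R4 →L[ℝ] ℝ} {s : R4 → Sp} (x u : R4) :
    cov A (fun y => -s y) x u = -cov A s x u := by
  have h : fderiv ℝ (fun y => -s y) x = -fderiv ℝ s x := fderiv_fun_neg
  rw [cov, h, cov, smul_neg, neg_apply]
  abel

lemma cont_dd {A : R4 → R4 →L[ℝ] ℝ} (hA : ContDiff ℝ ∞ A) (a c : Fin 4) :
    Continuous fun x => dd A x (Q.b a x) (Q.b c x) := by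
  have h1 : Continuous (fderiv ℝ A) := hA.continuous_fderiv (by simp)
  have ha := (Q.b_smooth a).continuous
  have hc := (Q.b_smooth c).continuous
  have h2 : (fun x => dd A x (Q.b a x) (Q.b c x)) = fun x =>
      fderiv ℝ A x (Q.b a x) (Q.b c x) - fderiv ℝ A x (Q.b c x) (Q.b a x) := by
    funext x
    simp [dd]
  rw [h2]
  exact ((h1.clm_apply ha).clm_apply hc).sub ((h1.clm_apply hc).clm_apply ha)

lemma cont_Fh {A : R4 → R4 →L[ℝ] ℝ} (hA : ContDiff ℝ ∞ A) (k : Fin 3) :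
    Continuous fun x => Q.Fh A x k := by
  have h := fun a c => cont_dd (Q := Q) hA a c
  fin_cases k
  · exact (h 0 1).add (h 2 3)
  · exact (h 0 2).add (h 3 1)
  · exact (h 0 3).add (h 1 2)

lemma cont_cov {A : R4 → R4 →L[ℝ] ℝ} {s : R4 → Sp} (hA : ContDiff ℝ ∞ A) (hs : ContDiff ℝ ∞ s)
    (c : Fin 4) : Continuous fun x => cov A s x (Q.b c x) :=
  (cov_contDiff A hA hs (Q.b_smooth c)).continuous

/-- the second integrand -/
def J2 (Q : Quat D) (δ : Fin 4 → R4 → ℝ) (A : R4 → R4 →L[ℝ] ℝ) (φ χ : R4 → Sp) (x : R4) : ℂ :=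
  ∑ c, inner ℂ (cov A φ x (Q.b c x) + (δ c x : ℂ) • φ x) (sig c (χ x))

/-- the first integrand -/
def J1 (Q : Quat D) (B : Fin 4 → R4 → En) (A : R4 → R4 →L[ℝ] ℝ) (φ χ : R4 → Sp) (x : R4) : ℂ :=
  ∑ c, inner ℂ (cov A φ x (Q.b c x)) (cov A χ x (Q.b c x))
    - ∑ k, (Q.Fh A x k : ℂ) * inner ℂ (pau k (φ x)) (χ x)
    + ∑ c, inner ℂ (B c x (cov A φ x (Q.b c x))) (χ x)

lemma cont_inner {f g : R4 → Sp} (hf : Continuous f) (hg : Continuous g) :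
    Continuous fun x => (inner ℂ (f x) (g x) : ℂ) := hf.inner hg

lemma cont_J2 {δ : Fin 4 → R4 → ℝ} (hδ : ∀ c, Continuous (δ c)) {A : R4 → R4 →L[ℝ] ℝ}
    {φ χ : R4 → Sp} (hA : ContDiff ℝ ∞ A) (hφ : ContDiff ℝ ∞ φ) (hχ : ContDiff ℝ ∞ χ) :
    Continuous (J2 Q δ A φ χ) := by
  refine continuous_finsetSum _ fun c _ => cont_inner ?_ ?_
  · exact (cont_cov hA hφ c).add ((Complex.continuous_ofReal.comp (hδ c)).smul hφ.continuous)
  · exact (sig c).continuous.comp hχ.continuous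

lemma cont_J1 {B : Fin 4 → R4 → En} (hB : ∀ c, Continuous (B c)) {A : R4 → R4 →L[ℝ] ℝ}
    {φ χ : R4 → Sp} (hA : ContDiff ℝ ∞ A) (hφ : ContDiff ℝ ∞ φ) (hχ : ContDiff ℝ ∞ χ) :
    Continuous (J1 Q B A φ χ) := by
  refine Continuous.add (Continuous.sub ?_ ?_) ?_
  · exact continuous_finsetSum _ fun c _ => cont_inner (cont_cov hA hφ c) (cont_cov hA hχ c)
  · refine continuous_finsetSum _ fun k _ => Continuous.mul ?_ ?_
    · exact Complex.continuous_ofReal.comp (cont_Fh hA k)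
    · exact cont_inner ((pau k).continuous.comp hφ.continuous) hχ.continuous
  · exact continuous_finsetSum _ fun c _ =>
      cont_inner ((hB c).clm_apply (cont_cov hA hφ c)) hχ.continuous

/-- both halves of `IL` together: the real part -/
lemma IL_re {δ : Fin 4 → R4 → ℝ} {B : Fin 4 → R4 → En} (hδ : ∀ c, Continuous (δ c))
    (hB : ∀ c, Continuous (B c)) {A : R4 → R4 →L[ℝ] ℝ} {φ φ' χ : R4 → Sp}
    (hA : ContDiff ℝ ∞ A) (hφ : ContDiff ℝ ∞ φ) (hφ' : ContDiff ℝ ∞ φ') (hχ : ContDiff ℝ ∞ χ)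
    (hD : ∀ x, Q.dirac A φ x = φ' x)
    (h1 : ∫ x in cube, inner ℂ (Q.dirac A φ x) (Q.dirac A χ x) = ∫ x in cube, J1 Q B A φ χ x)
    (h2 : ∫ x in cube, inner ℂ (φ' x) (Q.dirac A χ x) = - ∫ x in cube, J2 Q δ A φ' χ x) :
    ∫ x in cube, ((J1 Q B A φ χ x).re + (J2 Q δ A φ' χ x).re) = 0 := by
  simp only [hD] at h1
  rw [h1] at h2
  have i1 : IntegrableOn (J1 Q B A φ χ) cube := (cont_J1 hB hA hφ hχ).integrableOn_Icc
  have i2 : IntegrableOn (J2 Q δ A φ' χ) cube := (cont_J2 hδ hA hφ' hχ).integrableOn_Icc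
  have e1 : ∫ x in cube, (J1 Q B A φ χ x).re = (∫ x in cube, J1 Q B A φ χ x).re :=
    integral_re i1
  have e2 : ∫ x in cube, (J2 Q δ A φ' χ x).re = (∫ x in cube, J2 Q δ A φ' χ x).re :=
    integral_re i2
  have i1r : IntegrableOn (fun x => (J1 Q B A φ χ x).re) cube := i1.re
  have i2r : IntegrableOn (fun x => (J2 Q δ A φ' χ x).re) cube := i2.re
  rw [integral_add i1r i2r, e1, e2, h2]
  simp

end Vale.Agent.P247.H558
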