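import Vale.Agent.P247.H558.Max

/-!
# The maximum principle `MAX_statement`: assembly
-/

open scoped ContDiff Topology
open Set MeasureTheory Filter Metric

noncomputable section

namespace Vale.Agent.P247.H558

open Vale.Agent.P247.H74 Vale.Agent.P247.H574 Vale.Agent.P247.H647

/-- The integrated inequality. -/
lemma int_ineq (hIL : IL_statement) (hF : FRM_statement) (D : Data) (Q : Quat D) (Z : R4 → En)
    (hZ : ContDiff ℝ ∞ Z) (hZp : Per4 Z) : ∃ C : ℝ, 0 < C ∧
      ∀ (A : R4 → R4 →L[ℝ] ℝ) (ψ : R4 → Sp) (v : Fin 3 → ℝ), SW Q Z A ψ v →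
      ∀ h : R4 → ℝ, ContDiff ℝ ∞ h → Per4 h → (∀ x, 0 ≤ h x) →
      ∫ x in cube, (∑ c, fderiv ℝ h x (Q.b c x) *
        ((1 / 2) * fderiv ℝ (fun y => ‖ψ y‖ ^ 2) x (Q.b c x)) +
        h x * ((1 / 2) * ‖ψ x‖ ^ 2 * (‖ψ x‖ ^ 2 - Q.rho v x) - C * ‖ψ x‖ ^ 2)) ≤ 0 := by
  obtain ⟨δ, B, hδ, hδp, hB, hBp, hI⟩ := hIL D Q
  have hZdc : ∀ c, ContDiff ℝ ∞ fun x => fderiv ℝ Z x (Q.b c x) := fun c =>
    (hZ.fderiv_right (m := ∞) (by simp)).clm_apply (Q.b_smooth c)
  have hZdp : ∀ c, Per4 fun x => fderiv ℝ Z x (Q.b c x) := fun c k x => by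
    show fderiv ℝ Z (tr k x) (Q.b c (tr k x)) = _
    rw [per_fderiv hZp k x, Q.b_per c k x]
  choose M1 hM1 hM1' using fun c => per_bdd (hδ c).continuous (hδp c)
  choose M2 hM2 hM2' using fun c => per_bdd (hB c).continuous (hBp c)
  choose M3 hM3 hM3' using fun c => per_bdd (hZdc c).continuous (hZdp c)
  obtain ⟨M4, hM4, hM4'⟩ := per_bdd hZ.continuous hZp
  obtain ⟨M, hM, hMle⟩ : ∃ M : ℝ, M = 1 + ∑ c, M1 c + ∑ c, M2 c + ∑ c, M3 c + M4 ∧ 1 ≤ M := by
    refine ⟨_, rfl, ?_⟩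
    have p1 : 0 ≤ ∑ c, M1 c := Finset.sum_nonneg fun c _ => (hM1 c).le
    have p2 : 0 ≤ ∑ c, M2 c := Finset.sum_nonneg fun c _ => (hM2 c).le
    have p3 : 0 ≤ ∑ c, M3 c := Finset.sum_nonneg fun c _ => (hM3 c).le
    linarith
  have p1 : 0 ≤ ∑ c, M1 c := Finset.sum_nonneg fun c _ => (hM1 c).le
  have p2 : 0 ≤ ∑ c, M2 c := Finset.sum_nonneg fun c _ => (hM2 c).le
  have p3 : 0 ≤ ∑ c, M3 c := Finset.sum_nonneg fun c _ => (hM3 c).le
  have q1 : ∀ c, M1 c ≤ M := fun c => by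
    have := Finset.single_le_sum (f := M1) (fun c _ => (hM1 c).le) (Finset.mem_univ c)
    linarith
  have q2 : ∀ c, M2 c ≤ M := fun c => by
    have := Finset.single_le_sum (f := M2) (fun c _ => (hM2 c).le) (Finset.mem_univ c)
    linarith
  have q3 : ∀ c, M3 c ≤ M := fun c => by
    have := Finset.single_le_sum (f := M3) (fun c _ => (hM3 c).le) (Finset.mem_univ c)
    linarith
  have q4 : M4 ≤ M := by linarith
  refine ⟨4 * (2 * M ^ 2 + M), by positivity, ?_⟩
  intro A ψ v hs h hh hp h0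
  have hψs := hs.ψ_smooth
  have hχs : ContDiff ℝ ∞ fun x => (h x : ℂ) • ψ x := contDiff_rsmul hh hψs
  have hχq : QS fun x => (h x : ℂ) • ψ x := qs_rsmul hp hs.ψ_quasi
  have hφs : ContDiff ℝ ∞ fun x => -(Z x (ψ x)) := (contDiff_clm hZ hψs).neg
  have hφq : QS fun x => -(Z x (ψ x)) := qs_neg (qs_clm hZp hs.ψ_quasi)
  have h1 := (hI A ψ _ hs.A_smooth hs.A_quasi hψs hs.ψ_quasi hχs hχq).2
  have h2 := (hI A _ _ hs.A_smooth hs.A_quasi hφs hφq hχs hχq).1
  have hD : ∀ x, Q.dirac A ψ x = -(Z x (ψ x)) := fun x =>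
    eq_neg_of_add_eq_zero_left (hs.dirac x)
  have h3 := IL_re (fun c => (hδ c).continuous) (fun c => (hB c).continuous) hs.A_smooth hψs hφs
    hχs hD h1 h2
  rw [← h3]
  have hq : ContDiff ℝ ∞ fun y => ‖ψ y‖ ^ 2 := hψs.norm_sq ℂ
  refine setIntegral_mono ?_ ?_ fun x => ?_
  · refine Continuous.integrableOn_Icc ?_
    refine Continuous.add ?_ ?_
    · refine continuous_finsetSum _ fun c _ => Continuous.mul ?_ (continuous_const.mul ?_)
      · exact (hh.continuous_fderiv (by simp)).clm_apply (Q.b_smooth c).continuous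
      · exact (hq.continuous_fderiv (by simp)).clm_apply (Q.b_smooth c).continuous
    · refine hh.continuous.mul (Continuous.sub ?_ (continuous_const.mul hq.continuous))
      exact (continuous_const.mul hq.continuous).mul
        (hq.continuous.sub (rho_contDiff Q v).continuous)
  · have i1 := cont_J1 (Q := Q) (fun c => (hB c).continuous) hs.A_smooth hψs hχs
    have i2 := cont_J2 (Q := Q) (fun c => (hδ c).continuous) hs.A_smooth hφs hχs
    exact (Complex.continuous_re.comp i1).integrableOn_Icc.add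
      (Complex.continuous_re.comp i2).integrableOn_Icc
  · have hψd : DifferentiableAt ℝ ψ x := hψs.differentiable (by simp) x
    have hhd : DifferentiableAt ℝ h x := hh.differentiable (by simp) x
    have hZd : DifferentiableAt ℝ Z x := hZ.differentiable (by simp) x
    have hFk : ∀ k, Q.Fh A x k = Q.dv x v k - (1 / 2) * pv (ψ x) k := by
      intro k
      have := Fh_eq hF (Q := Q) (A := A) (φ := ψ) (w := v) (κ := 0) (r := 1) (x := x)
        (fun j => by rw [hs.curv x j]; simp) k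
      rw [this]
      have h0 : Q.dv x 0 k = 0 := by simp [Quat.dv]
      rw [h0]
      ring
    have key := pw hMle (h0 x) (ψ x) (fun c => cov A ψ x (Q.b c x)) (fun c => B c x)
      (fun c => fderiv ℝ Z x (Q.b c x)) (Z x) (fun c => δ c x) (fun c => fderiv ℝ h x (Q.b c x))
      (fun k => Q.Fh A x k) (Q.dv x v) (fun c => (hM2' c x).trans (q2 c))
      (fun c => (hM3' c x).trans (q3 c)) ((hM4' x).trans q4)
      (fun c => by have := (hM1' c x).trans (q1 c); rwa [Real.norm_eq_abs] at this) hFk rfl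
      (ρ := Q.rho v x)
    have c1 : ∀ c, cov A (fun x => (h x : ℂ) • ψ x) x (Q.b c x) =
        ((fderiv ℝ h x (Q.b c x) : ℝ) : ℂ) • ψ x + (h x : ℂ) • cov A ψ x (Q.b c x) :=
      fun c => cov_rsmul A hhd hψd _
    have c2 : ∀ c, cov A (fun x => -(Z x (ψ x))) x (Q.b c x) = -(fderiv ℝ Z x (Q.b c x) (ψ x) +
        Z x (cov A ψ x (Q.b c x))) := by
      intro c
      rw [cov_neg', cov_clm A hZd hψd]
    have c3 : ∀ c, (1 / 2) * fderiv ℝ (fun y => ‖ψ y‖ ^ 2) x (Q.b c x) =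
        (inner ℂ (cov A ψ x (Q.b c x)) (ψ x)).re := by
      intro c
      rw [fderiv_normSq A hψd]
      ring
    simp only [J1, J2, c1, c2, c3]
    exact key

theorem MAX (hIL : IL_statement) (hF : FRM_statement) : MAX_statement := by
  intro D Q Z hZ hZp
  obtain ⟨C, hC, hint⟩ := int_ineq hIL hF D Q Z hZ hZp
  obtain ⟨C1, hC1, hdiv⟩ := div_bound Q
  obtain ⟨C0, hC0, hb⟩ := rho_bounds Q
  refine ⟨2 * (C + C1 * C0 + 1), by positivity, ?_⟩
  set K := 2 * (C + C1 * C0 + 1) with hK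
  have hK0 : 0 < K := by positivity
  intro A ψ v hs
  have hψs := hs.ψ_smooth
  have hq : ContDiff ℝ ∞ fun y => ‖ψ y‖ ^ 2 := hψs.norm_sq ℂ
  have hqp : Per4 fun y => ‖ψ y‖ ^ 2 := per_normSq hs.ψ_quasi
  have hρ := rho_contDiff Q v
  set s : R4 → ℝ := fun x => ‖ψ x‖ ^ 2 - Q.rho v x - K with hsdef
  have hss : ContDiff ℝ ∞ s := (hq.sub hρ).sub contDiff_const
  have hsp : Per4 s := fun k x => by
    show ‖ψ (tr k x)‖ ^ 2 - Q.rho v (tr k x) - K = _
    have := hqp k x
    simp only at this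
    rw [this, rho_tr]
  set h : R4 → ℝ := fun x => Real.smoothTransition (s x) with hdef
  have hh : ContDiff ℝ ∞ h := Real.smoothTransition.contDiff.comp hss
  have hhp : Per4 h := fun k x => by
    show Real.smoothTransition (s (tr k x)) = _
    rw [hsp k x]
  have h0 : ∀ x, 0 ≤ h x := fun x => Real.smoothTransition.nonneg _
  obtain ⟨d, hdc, hd1, hd2⟩ := hdiv v
  have hI1 := hint A ψ v hs h hh hhp h0
  have hI2 := hd2 h hh hhp
  have hder : ∀ x c, 0 ≤ fderiv ℝ h x (Q.b c x) * fderiv ℝ s x (Q.b c x) := by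
    intro x c
    have h1 : HasFDerivAt h ((deriv Real.smoothTransition (s x)) • fderiv ℝ s x) x := by
      have h2 : HasDerivAt Real.smoothTransition (deriv Real.smoothTransition (s x)) (s x) :=
        (Real.smoothTransition.contDiff (n := 1)).differentiable (by simp) (s x) |>.hasDerivAt
      exact h2.comp_hasFDerivAt x (hss.differentiable (by simp) x).hasFDerivAt
    rw [h1.fderiv, smul_apply, smul_eq_mul]
    have h3 : 0 ≤ deriv Real.smoothTransition (s x) := Real.smoothTransition.monotone.deriv_nonneg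
    have := mul_nonneg h3 (mul_self_nonneg (fderiv ℝ s x (Q.b c x)))
    nlinarith
  have hder2 : ∀ x c, fderiv ℝ (fun y => ‖ψ y‖ ^ 2) x (Q.b c x) =
      fderiv ℝ s x (Q.b c x) + fderiv ℝ (Q.rho v) x (Q.b c x) := by
    intro x c
    have h1 : HasFDerivAt s (fderiv ℝ (fun y => ‖ψ y‖ ^ 2) x - fderiv ℝ (Q.rho v) x) x :=
      ((hq.differentiable (by simp) x).hasFDerivAt.sub
        (hρ.differentiable (by simp) x).hasFDerivAt).sub_const K
    rw [h1.fderiv]
    simp
  -- the integral of `h |ψ|²` is nonpositive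
  have hfin : ∫ x in cube, h x * ‖ψ x‖ ^ 2 ≤ 0 := by
    have cq := hq.continuous
    have ch := hh.continuous
    have cdh : ∀ c, Continuous fun x => fderiv ℝ h x (Q.b c x) := fun c =>
      (hh.continuous_fderiv (by simp)).clm_apply (Q.b_smooth c).continuous
    have cdq : ∀ c, Continuous fun x => fderiv ℝ (fun y => ‖ψ y‖ ^ 2) x (Q.b c x) := fun c =>
      (hq.continuous_fderiv (by simp)).clm_apply (Q.b_smooth c).continuous
    have cdr : ∀ c, Continuous fun x => fderiv ℝ (Q.rho v) x (Q.b c x) := fun c =>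
      (hρ.continuous_fderiv (by simp)).clm_apply (Q.b_smooth c).continuous
    have i1 : IntegrableOn (fun x => ∑ c, fderiv ℝ h x (Q.b c x) *
        ((1 / 2) * fderiv ℝ (fun y => ‖ψ y‖ ^ 2) x (Q.b c x)) +
        h x * ((1 / 2) * ‖ψ x‖ ^ 2 * (‖ψ x‖ ^ 2 - Q.rho v x) - C * ‖ψ x‖ ^ 2)) cube := by
      refine Continuous.integrableOn_Icc (Continuous.add ?_ ?_)
      · exact continuous_finsetSum _ fun c _ => (cdh c).mul (continuous_const.mul (cdq c))
      · exact ch.mul (((continuous_const.mul cq).mul (cq.sub hρ.continuous)).sub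
          (continuous_const.mul cq))
    have i2 : IntegrableOn (fun x => (1 / 2) * (∑ c, fderiv ℝ h x (Q.b c x) *
        fderiv ℝ (Q.rho v) x (Q.b c x) + h x * d x)) cube := by
      refine Continuous.integrableOn_Icc (continuous_const.mul (Continuous.add ?_ (ch.mul hdc)))
      exact continuous_finsetSum _ fun c _ => (cdh c).mul (cdr c)
    have h4 : ∫ x in cube, (1 / 2) * (∑ c, fderiv ℝ h x (Q.b c x) *
        fderiv ℝ (Q.rho v) x (Q.b c x) + h x * d x) = 0 := by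
      rw [integral_const_mul, hI2, mul_zero]
    have h5 : ∫ x in cube, ((∑ c, fderiv ℝ h x (Q.b c x) *
        ((1 / 2) * fderiv ℝ (fun y => ‖ψ y‖ ^ 2) x (Q.b c x)) +
        h x * ((1 / 2) * ‖ψ x‖ ^ 2 * (‖ψ x‖ ^ 2 - Q.rho v x) - C * ‖ψ x‖ ^ 2)) -
        (1 / 2) * (∑ c, fderiv ℝ h x (Q.b c x) *
        fderiv ℝ (Q.rho v) x (Q.b c x) + h x * d x)) ≤ 0 := by
      rw [integral_sub i1 i2, h4, sub_zero]
      exact hI1
    refine le_trans (setIntegral_mono ((ch.mul cq).integrableOn_Icc) (i1.sub i2) fun x => ?_) h5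
    have e1 : 0 ≤ ∑ c, fderiv ℝ h x (Q.b c x) * fderiv ℝ s x (Q.b c x) :=
      Finset.sum_nonneg fun c _ => hder x c
    have e2 : ∑ c, fderiv ℝ h x (Q.b c x) *
        ((1 / 2) * fderiv ℝ (fun y => ‖ψ y‖ ^ 2) x (Q.b c x)) =
        (1 / 2) * ∑ c, fderiv ℝ h x (Q.b c x) * fderiv ℝ s x (Q.b c x) +
        (1 / 2) * ∑ c, fderiv ℝ h x (Q.b c x) * fderiv ℝ (Q.rho v) x (Q.b c x) := by
      rw [Finset.mul_sum, Finset.mul_sum, ← Finset.sum_add_distrib]
      refine Finset.sum_congr rfl fun c _ => ?_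
      rw [hder2]
      ring
    simp only [Pi.sub_apply]
    rw [e2]
    by_cases hx : s x ≤ 0
    · have hz : h x = 0 := Real.smoothTransition.zero_of_nonpos hx
      rw [hz]
      linarith
    · push Not at hx
      have hr0 := rho_nonneg Q v x
      have hb1 := (hb v x).1
      have hd3 := (abs_le.1 (hd1 x)).2
      have hqx : Q.rho v x + K < ‖ψ x‖ ^ 2 := by
        have : 0 < ‖ψ x‖ ^ 2 - Q.rho v x - K := hx
        linarith
      have hdle : d x ≤ C1 * C0 * ‖ψ x‖ ^ 2 := by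
        calc d x ≤ C1 * len v := hd3
          _ ≤ C1 * (C0 * Q.rho v x) := mul_le_mul_of_nonneg_left hb1 hC1.le
          _ = C1 * C0 * Q.rho v x := by ring
          _ ≤ C1 * C0 * ‖ψ x‖ ^ 2 := mul_le_mul_of_nonneg_left (by linarith) (by positivity)
      have hmain : ‖ψ x‖ ^ 2 ≤ (1 / 2) * ‖ψ x‖ ^ 2 * (‖ψ x‖ ^ 2 - Q.rho v x) - C * ‖ψ x‖ ^ 2 -
          (1 / 2) * d x := by
        have h6 : (1 / 2) * ‖ψ x‖ ^ 2 * K ≤ (1 / 2) * ‖ψ x‖ ^ 2 * (‖ψ x‖ ^ 2 - Q.rho v x) :=
          mul_le_mul_of_nonneg_left (by linarith) (by positivity)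
        have h7 : 0 ≤ C1 * C0 * ‖ψ x‖ ^ 2 := by positivity
        rw [hK] at h6
        linarith
      have := mul_le_mul_of_nonneg_left hmain (h0 x)
      linarith
  have hpp : Per4 fun x => h x * ‖ψ x‖ ^ 2 := fun k x => by
    have h1 : ‖ψ (tr k x)‖ ^ 2 = ‖ψ x‖ ^ 2 := hqp k x
    show h (tr k x) * ‖ψ (tr k x)‖ ^ 2 = h x * ‖ψ x‖ ^ 2
    rw [hhp k x, h1]
  have hz := nonneg_int_zero (g := fun x => h x * ‖ψ x‖ ^ 2)
    (hh.continuous.mul hq.continuous) hpp (fun x => mul_nonneg (h0 x) (by positivity)) hfin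
  intro x
  by_contra hx
  push Not at hx
  have hsx : 0 < s x := by
    show 0 < ‖ψ x‖ ^ 2 - Q.rho v x - K
    linarith
  have h8 : 0 < h x := Real.smoothTransition.pos_of_pos hsx
  have h9 : 0 < ‖ψ x‖ ^ 2 := by
    have := rho_nonneg Q v x
    linarith
  have h11 := hz x
  have h10 := mul_pos h8 h9
  linarith

end Vale.Agent.P247.H558
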