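import Vale.Agent.P247.H558.Cov

/-!
# The function `ρ_v`: smoothness and bounds, uniformly in `v`
-/

open scoped ContDiff Topology
open Set MeasureTheory Filter Metric

noncomputable section

namespace Vale.Agent.P247.H558

open Vale.Agent.P247.H74 Vale.Agent.P247.H574 Vale.Agent.P247.H647

/-- every point has a lattice translate in the cube -/
lemma exists_tr_cube (x : R4) : ∃ k : Fin 4 → ℤ, tr k x ∈ cube := by
  refine ⟨fun i => -⌊x i⌋, ?_⟩
  rw [cube, mem_Icc]
  constructor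
  · intro i
    simp only [tr, Pi.zero_apply, Int.cast_neg]
    have := Int.floor_le (x i)
    linarith
  · intro i
    simp only [tr, Pi.one_apply, Int.cast_neg]
    have := Int.lt_floor_add_one (x i)
    linarith

abbrev V3 : Type := Fin 3 → ℝ

lemma isCompact_sph : IsCompact {v : V3 | len v = 1} := by
  refine IsCompact.of_isClosed_subset (isCompact_closedBall (0 : V3) 1) ?_ ?_
  · refine isClosed_eq ?_ continuous_const
    unfold len
    fun_prop
  · intro v hv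
    rw [mem_closedBall_zero_iff, pi_norm_le_iff_of_nonneg zero_le_one]
    intro k
    have h1 : v k ^ 2 ≤ ∑ j, v j ^ 2 :=
      Finset.single_le_sum (f := fun j => v j ^ 2) (fun j _ => sq_nonneg _) (Finset.mem_univ k)
    rw [← len_sq, hv] at h1
    rw [Real.norm_eq_abs]
    exact abs_le_of_sq_le_sq' (by simpa using h1) zero_le_one |> fun h => abs_le.2 h

lemma len_ne_zero {v : V3} (hv : v ≠ 0) : len v ≠ 0 := by
  intro h
  apply hv
  have h2 := len_sq v
  rw [h] at h2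
  funext k
  have h1 : v k ^ 2 ≤ ∑ j, v j ^ 2 :=
    Finset.single_le_sum (f := fun j => v j ^ 2) (fun j _ => sq_nonneg _) (Finset.mem_univ k)
  have : v k ^ 2 ≤ 0 := by rw [← h2] at h1; simpa using h1
  simpa using le_antisymm this (sq_nonneg _)

lemma ne_zero_of_len {v : V3} (hv : len v = 1) : v ≠ 0 := by
  rintro rfl
  simp [len] at hv

lemma len_smul (c : ℝ) (v : V3) : len (c • v) = |c| * len v := by
  unfold len
  rw [← Real.sqrt_sq_eq_abs, ← Real.sqrt_mul (sq_nonneg c)]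
  congr 1
  rw [Finset.mul_sum]
  refine Finset.sum_congr rfl fun k _ => ?_
  simp only [Pi.smul_apply, smul_eq_mul]
  ring

lemma unif_bound {g : R4 × V3 → ℝ} (hg : ContinuousOn g {p | p.2 ≠ 0})
    (hp : ∀ (k : Fin 4 → ℤ) x v, g (tr k x, v) = g (x, v)) :
    ∃ C, ∀ x v, len v = 1 → |g (x, v)| ≤ C := by
  have hK : IsCompact (cube ×ˢ {v : V3 | len v = 1}) := (isCompact_Icc).prod isCompact_sph
  have hs : cube ×ˢ {v : V3 | len v = 1} ⊆ {p : R4 × V3 | p.2 ≠ 0} := by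
    rintro ⟨x, v⟩ ⟨_, hv⟩
    exact ne_zero_of_len hv
  obtain ⟨C, hC⟩ := hK.exists_bound_of_continuousOn (hg.mono hs)
  refine ⟨C, fun x v hv => ?_⟩
  obtain ⟨k, hk⟩ := exists_tr_cube x
  rw [← hp k x v]
  exact hC (tr k x, v) ⟨hk, hv⟩

variable {D : Data} (Q : Quat D)

lemma inv_contDiff (j k : Fin 3) : ContDiff ℝ ∞ fun x => (Q.T x)⁻¹ j k := by
  have hT := Q.T_smooth
  have hdet : ContDiff ℝ ∞ fun x => (Q.T x).det := by
    have : (fun x => (Q.T x).det) = fun x => Q.T x 0 0 * Q.T x 1 1 * Q.T x 2 2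
        - Q.T x 0 0 * Q.T x 1 2 * Q.T x 2 1 - Q.T x 0 1 * Q.T x 1 0 * Q.T x 2 2
        + Q.T x 0 1 * Q.T x 1 2 * Q.T x 2 0 + Q.T x 0 2 * Q.T x 1 0 * Q.T x 2 1
        - Q.T x 0 2 * Q.T x 1 1 * Q.T x 2 0 := by
      funext x
      rw [Matrix.det_fin_three]
    rw [this]
    have h00 := hT 0 0; have h01 := hT 0 1; have h02 := hT 0 2
    have h10 := hT 1 0; have h11 := hT 1 1; have h12 := hT 1 2
    have h20 := hT 2 0; have h21 := hT 2 1; have h22 := hT 2 2
    fun_prop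
  have hadj : ContDiff ℝ ∞ fun x => (Q.T x).adjugate j k := by
    have h00 := hT 0 0; have h01 := hT 0 1; have h02 := hT 0 2
    have h10 := hT 1 0; have h11 := hT 1 1; have h12 := hT 1 2
    have h20 := hT 2 0; have h21 := hT 2 1; have h22 := hT 2 2
    simp only [Matrix.adjugate_fin_three]
    fin_cases j <;> fin_cases k <;> simp <;> fun_prop
  have h : (fun x => (Q.T x)⁻¹ j k) = fun x => ((Q.T x).det)⁻¹ * (Q.T x).adjugate j k := by
    funext x
    rw [Matrix.inv_def, Ring.inverse_eq_inv']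
    rfl
  rw [h]
  exact (hdet.inv Q.T_det).mul hadj

lemma T_tr (k : Fin 4 → ℤ) (x : R4) : Q.T (tr k x) = Q.T x := by
  ext i j
  exact Q.T_per i j k x

/-- `T (T⁻¹ v) = v` -/
lemma T_dv (x : R4) (v : V3) : (Q.T x).mulVec (Q.dv x v) = v := by
  rw [Quat.dv, Matrix.mulVec_mulVec, Matrix.mul_nonsing_inv, Matrix.one_mulVec]
  exact isUnit_iff_ne_zero.2 (Q.T_det x)

lemma dv_T (x : R4) (v : V3) : Q.dv x ((Q.T x).mulVec v) = v := by
  rw [Quat.dv, Matrix.mulVec_mulVec, Matrix.nonsing_inv_mul, Matrix.one_mulVec]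
  exact isUnit_iff_ne_zero.2 (Q.T_det x)

lemma dv_ne {x : R4} {v : V3} (hv : v ≠ 0) : Q.dv x v ≠ 0 := by
  intro h
  apply hv
  rw [← T_dv Q x v, h, Matrix.mulVec_zero]

lemma dv_contDiff (k : Fin 3) : ContDiff ℝ ∞ fun p : R4 × V3 => Q.dv p.1 p.2 k := by
  have h : (fun p : R4 × V3 => Q.dv p.1 p.2 k) =
      fun p => ∑ j, (Q.T p.1)⁻¹ k j * p.2 j := by
    funext p
    rfl
  rw [h]
  refine ContDiff.sum fun j _ => ContDiff.mul ?_ ?_
  · exact (inv_contDiff Q k j).comp contDiff_fst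
  · fun_prop

lemma rho_contDiffOn : ContDiffOn ℝ ∞ (fun p : R4 × V3 => Q.rho p.2 p.1) {p | p.2 ≠ 0} := by
  intro p hp
  have h1 : ContDiff ℝ ∞ fun p : R4 × V3 => ∑ k, Q.dv p.1 p.2 k ^ 2 :=
    ContDiff.sum fun k _ => (dv_contDiff Q k).pow 2
  have h2 : ∑ k, Q.dv p.1 p.2 k ^ 2 ≠ 0 := by
    rw [← len_sq]
    exact pow_ne_zero 2 (len_ne_zero (dv_ne Q hp))
  have h3 : ContDiffAt ℝ ∞ (fun p : R4 × V3 => 2 * Real.sqrt (∑ k, Q.dv p.1 p.2 k ^ 2)) p :=
    contDiffAt_const.mul (h1.contDiffAt.sqrt h2)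
  exact h3.contDiffWithinAt

lemma rho_tr (k : Fin 4 → ℤ) (x : R4) (v : V3) : Q.rho v (tr k x) = Q.rho v x := by
  simp only [Quat.rho, Quat.dv, T_tr]

lemma rho_smul {c : ℝ} (hc : 0 ≤ c) (v : V3) (x : R4) : Q.rho (c • v) x = c * Q.rho v x := by
  have : Q.dv x (c • v) = c • Q.dv x v := by
    simp only [Quat.dv, Matrix.mulVec_smul]
  rw [Quat.rho, this, len_smul, abs_of_nonneg hc, Quat.rho]
  ring

lemma rho_zero (x : R4) : Q.rho 0 x = 0 := by
  simp [Quat.rho, Quat.dv, len]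

lemma rho_nonneg (v : V3) (x : R4) : 0 ≤ Q.rho v x :=
  mul_nonneg (by norm_num) (len_nonneg _)

/-- partial derivative in the first variable -/
def pd (g : R4 × V3 → ℝ) (i : Fin 4) (p : R4 × V3) : ℝ := fderiv ℝ g p (e i, 0)

lemma isOpen_U : IsOpen {p : R4 × V3 | p.2 ≠ 0} := isOpen_ne_fun continuous_snd continuous_const

lemma pd_contDiffOn {g : R4 × V3 → ℝ} (hg : ContDiffOn ℝ ∞ g {p | p.2 ≠ 0}) (i : Fin 4) :
    ContDiffOn ℝ ∞ (pd g i) {p | p.2 ≠ 0} := by
  have h1 := hg.fderiv_of_isOpen (m := ∞) isOpen_U (by simp)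
  exact h1.clm_apply contDiffOn_const

lemma pd_per {g : R4 × V3 → ℝ} (hp : ∀ (k : Fin 4 → ℤ) x v, g (tr k x, v) = g (x, v)) (i : Fin 4)
    (k : Fin 4 → ℤ) (x : R4) (v : V3) : pd g i (tr k x, v) = pd g i (x, v) := by
  have h1 : (fun p : R4 × V3 => g (p + ((fun j => (k j : ℝ)), 0))) = g := by
    funext p
    have := hp k p.1 p.2
    rw [← this]
    congr 1
    ext j
    · rfl
    · simp
  have h2 := fderiv_comp_add_right (𝕜 := ℝ) (f := g) (x := (x, v)) ((fun j => (k j : ℝ)), (0 : V3))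
  rw [h1] at h2
  unfold pd
  rw [h2]
  congr 2
  ext j
  · rfl
  · simp

lemma pd_eq {g : R4 × V3 → ℝ} (hg : ContDiffOn ℝ ∞ g {p | p.2 ≠ 0}) (i : Fin 4) (x : R4) {v : V3}
    (hv : v ≠ 0) : fderiv ℝ (fun y => g (y, v)) x (e i) = pd g i (x, v) := by
  have h1 : DifferentiableAt ℝ g (x, v) :=
    ((hg (x, v) hv).contDiffAt (isOpen_U.mem_nhds hv)).differentiableAt (by simp)
  have h2 : HasFDerivAt (fun y : R4 => (y, v)) (ContinuousLinearMap.inl ℝ R4 V3) x :=
    hasFDerivAt_prodMk_left x v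
  have h3 := h1.hasFDerivAt.comp x h2
  have h4 : (fun y => g (y, v)) = g ∘ fun y => (y, v) := rfl
  rw [h4, h3.fderiv]
  rfl

/-- the function `(x, v) ↦ ρ_v (x)` -/
def rf (p : R4 × V3) : ℝ := Q.rho p.2 p.1

lemma rho_contDiff (v : V3) : ContDiff ℝ ∞ (Q.rho v) := by
  by_cases hv : v = 0
  · subst hv
    have : Q.rho 0 = fun _ => 0 := funext fun x => rho_zero Q x
    rw [this]
    exact contDiff_const
  · rw [contDiff_iff_contDiffAt]
    intro x
    have h1 := (rho_contDiffOn Q (x, v) hv).contDiffAt (isOpen_U.mem_nhds hv)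
    have h2 : ContDiffAt ℝ ∞ (fun y : R4 => (y, v)) x :=
      (contDiff_id.prodMk contDiff_const).contDiffAt
    exact ContDiffAt.comp (g := fun p : R4 × V3 => Q.rho p.2 p.1) (f := fun y : R4 => (y, v)) x h1 h2

/-- bounds for `ρ_v` -/
lemma rho_bounds : ∃ C : ℝ, 0 < C ∧ ∀ (v : V3) (x : R4), len v ≤ C * Q.rho v x ∧
    (∀ i, |fderiv ℝ (Q.rho v) x (e i)| ≤ C * len v) ∧
    ∀ i j, |fderiv ℝ (fun y => fderiv ℝ (Q.rho v) y (e i)) x (e j)| ≤ C * len v := by
  have hF : ContDiffOn ℝ ∞ (rf Q) {p | p.2 ≠ 0} := rho_contDiffOn Q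
  have hP : ∀ (k : Fin 4 → ℤ) x v, rf Q (tr k x, v) = rf Q (x, v) := fun k x v => rho_tr Q k x v
  have hF1 := fun i => pd_contDiffOn hF i
  have hP1 := fun i => pd_per hP i
  have hF2 := fun i j => pd_contDiffOn (hF1 i) j
  have hP2 := fun i j => pd_per (hP1 i) j
  have hpos : ∀ p : R4 × V3, p.2 ≠ 0 → rf Q p ≠ 0 := by
    rintro ⟨x, v⟩ hv
    exact mul_ne_zero (by norm_num) (len_ne_zero (dv_ne Q hv))
  obtain ⟨C0, h0⟩ := unif_bound (g := fun p => (rf Q p)⁻¹)
    (hF.continuousOn.inv₀ fun p hp => hpos p hp) (fun k x v => by simp only [hP])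
  choose C1 h1 using fun i => unif_bound (hF1 i).continuousOn (hP1 i)
  choose C2 h2 using fun i j => unif_bound (hF2 i j).continuousOn (hP2 i j)
  refine ⟨|C0| + (∑ i, |C1 i|) + (∑ i, ∑ j, |C2 i j|) + 1, by positivity, ?_⟩
  set C := |C0| + (∑ i, |C1 i|) + (∑ i, ∑ j, |C2 i j|) + 1 with hC
  have e0 : C0 ≤ C := by
    have := le_abs_self C0
    have a1 : 0 ≤ ∑ i, |C1 i| := Finset.sum_nonneg fun i _ => abs_nonneg _
    have a2 : 0 ≤ ∑ i, ∑ j, |C2 i j| :=
      Finset.sum_nonneg fun i _ => Finset.sum_nonneg fun j _ => abs_nonneg _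
    linarith
  have e1 : ∀ i, C1 i ≤ C := by
    intro i
    have a0 := abs_nonneg C0
    have a1 : |C1 i| ≤ ∑ i, |C1 i| :=
      Finset.single_le_sum (f := fun i => |C1 i|) (fun i _ => abs_nonneg _) (Finset.mem_univ i)
    have a2 : 0 ≤ ∑ i, ∑ j, |C2 i j| :=
      Finset.sum_nonneg fun i _ => Finset.sum_nonneg fun j _ => abs_nonneg _
    have := le_abs_self (C1 i)
    linarith
  have e2 : ∀ i j, C2 i j ≤ C := by
    intro i j
    have a0 := abs_nonneg C0
    have a1 : 0 ≤ ∑ i, |C1 i| := Finset.sum_nonneg fun i _ => abs_nonneg _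
    have a2 : |C2 i j| ≤ ∑ j, |C2 i j| :=
      Finset.single_le_sum (f := fun j => |C2 i j|) (fun i _ => abs_nonneg _) (Finset.mem_univ j)
    have a3 : ∑ j, |C2 i j| ≤ ∑ i, ∑ j, |C2 i j| :=
      Finset.single_le_sum (f := fun i => ∑ j, |C2 i j|)
        (fun i _ => Finset.sum_nonneg fun j _ => abs_nonneg _) (Finset.mem_univ i)
    have := le_abs_self (C2 i j)
    linarith
  -- unit vectors
  have key : ∀ (v : V3) (x : R4), len v = 1 → 1 ≤ C * Q.rho v x ∧
      (∀ i, |fderiv ℝ (Q.rho v) x (e i)| ≤ C) ∧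
      ∀ i j, |fderiv ℝ (fun y => fderiv ℝ (Q.rho v) y (e i)) x (e j)| ≤ C := by
    intro v x hv
    have hv0 := ne_zero_of_len hv
    have d1 : ∀ y i, fderiv ℝ (Q.rho v) y (e i) = pd (rf Q) i (y, v) :=
      fun y i => pd_eq hF i y hv0
    refine ⟨?_, fun i => ?_, fun i j => ?_⟩
    · have h := h0 x v hv
      have hr : 0 < Q.rho v x := lt_of_le_of_ne (rho_nonneg Q v x) (hpos (x, v) hv0).symm
      have h' : (Q.rho v x)⁻¹ ≤ C := by
        have : |(Q.rho v x)⁻¹| = (Q.rho v x)⁻¹ := abs_of_pos (inv_pos.2 hr)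
        rw [← this]
        exact h.trans e0
      have := mul_le_mul_of_nonneg_right h' hr.le
      rwa [inv_mul_cancel₀ hr.ne'] at this
    · rw [d1]
      exact (h1 i x v hv).trans (e1 i)
    · have : (fun y => fderiv ℝ (Q.rho v) y (e i)) = fun y => pd (rf Q) i (y, v) :=
        funext fun y => d1 y i
      rw [this, pd_eq (hF1 i) j x hv0]
      exact (h2 i j x v hv).trans (e2 i j)
  intro v x
  by_cases hv : v = 0
  · subst hv
    have hz : Q.rho 0 = fun _ => 0 := funext fun x => rho_zero Q x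
    have hl : len (0 : V3) = 0 := by simp [len]
    rw [hz, hl]
    simp
  · have hl : 0 < len v := lt_of_le_of_ne (len_nonneg v) (len_ne_zero hv).symm
    set u : V3 := (len v)⁻¹ • v with hu
    have hlu : len u = 1 := by
      rw [hu, len_smul, abs_of_pos (inv_pos.2 hl), inv_mul_cancel₀ hl.ne']
    have hvu : v = len v • u := by
      rw [hu, smul_smul, mul_inv_cancel₀ hl.ne', one_smul]
    have hr : Q.rho v = fun y => len v * Q.rho u y := by
      funext y
      conv_lhs => rw [hvu]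
      rw [rho_smul Q hl.le]
    obtain ⟨k0, k1, k2⟩ := key u x hlu
    have hd : ∀ y, DifferentiableAt ℝ (Q.rho u) y :=
      fun y => (rho_contDiff Q u).differentiable (by simp) y
    have hd1 : ∀ y i, fderiv ℝ (Q.rho v) y (e i) = len v * fderiv ℝ (Q.rho u) y (e i) := by
      intro y i
      rw [hr, fderiv_const_mul (hd y)]
      rfl
    refine ⟨?_, fun i => ?_, fun i j => ?_⟩
    · have : Q.rho v x = len v * Q.rho u x := congrFun hr x
      rw [this]
      nlinarith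
    · rw [hd1, abs_mul, abs_of_pos hl, mul_comm]
      exact mul_le_mul_of_nonneg_right (k1 i) hl.le
    · have : (fun y => fderiv ℝ (Q.rho v) y (e i)) =
          fun y => len v * fderiv ℝ (Q.rho u) y (e i) := funext fun y => hd1 y i
      rw [this, fderiv_const_mul]
      · rw [smul_apply, smul_eq_mul, abs_mul, abs_of_pos hl, mul_comm]
        exact mul_le_mul_of_nonneg_right (k2 i j) hl.le
      · have h5 : ContDiff ℝ ∞ fun y => fderiv ℝ (Q.rho u) y (e i) :=
          ((rho_contDiff Q u).fderiv_right (m := ∞) (by simp)).clm_apply contDiff_const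
        exact h5.differentiable (by simp) x

end Vale.Agent.P247.H558
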