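import Vale.Agent.P247.H647.Sta

/-!
# Pointwise algebra of spinors
-/

open scoped ContDiff Topology
open Set MeasureTheory Filter Metric

noncomputable section

namespace Vale.Agent.P247.H558

open Vale.Agent.P247.H74 Vale.Agent.P247.H574 Vale.Agent.P247.H647

lemma opM_apply (M : Matrix (Fin 2) (Fin 2) ℂ) (ψ : Sp) (i : Fin 2) :
    opM M ψ i = ∑ j, M i j * ψ j := by
  rw [opM]
  rw [Matrix.ofLp_toEuclideanCLM]
  rfl

lemma inner_sp (ψ φ : Sp) :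
    inner ℂ ψ φ = (starRingEnd ℂ) (ψ 0) * φ 0 + (starRingEnd ℂ) (ψ 1) * φ 1 := by
  simp [PiLp.inner_apply, Fin.sum_univ_two]
  ring

lemma norm_sq_sp (ψ : Sp) : ‖ψ‖ ^ 2 = ‖ψ 0‖ ^ 2 + ‖ψ 1‖ ^ 2 := by
  rw [EuclideanSpace.norm_sq_eq, Fin.sum_univ_two]

lemma normSq_c (z : ℂ) : ((‖z‖ ^ 2 : ℝ) : ℂ) = (starRingEnd ℂ) z * z := by
  rw [← Complex.normSq_eq_norm_sq, Complex.normSq_eq_conj_mul_self]

lemma norm_sq_spc (ψ : Sp) :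
    ((‖ψ‖ ^ 2 : ℝ) : ℂ) = (starRingEnd ℂ) (ψ 0) * ψ 0 + (starRingEnd ℂ) (ψ 1) * ψ 1 := by
  rw [norm_sq_sp]
  push_cast
  have h0 := normSq_c (ψ 0)
  have h1 := normSq_c (ψ 1)
  push_cast at h0 h1
  rw [h0, h1]

@[simp] lemma pau0_0 (ψ : Sp) : pau 0 ψ 0 = ψ 1 := by
  simp [pau, opM_apply, pauM, Fin.sum_univ_two]
@[simp] lemma pau0_1 (ψ : Sp) : pau 0 ψ 1 = ψ 0 := by
  simp [pau, opM_apply, pauM, Fin.sum_univ_two]
@[simp] lemma pau1_0 (ψ : Sp) : pau 1 ψ 0 = -Complex.I * ψ 1 := by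
  simp [pau, opM_apply, pauM, Fin.sum_univ_two]
@[simp] lemma pau1_1 (ψ : Sp) : pau 1 ψ 1 = Complex.I * ψ 0 := by
  simp [pau, opM_apply, pauM, Fin.sum_univ_two]
@[simp] lemma pau2_0 (ψ : Sp) : pau 2 ψ 0 = ψ 0 := by
  simp [pau, opM_apply, pauM, Fin.sum_univ_two]
@[simp] lemma pau2_1 (ψ : Sp) : pau 2 ψ 1 = -ψ 1 := by
  simp [pau, opM_apply, pauM, Fin.sum_univ_two]

/-- the Pauli matrices are self-adjoint -/
lemma pau_symm (k : Fin 3) (ψ φ : Sp) : inner ℂ (pau k ψ) φ = inner ℂ ψ (pau k φ) := by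
  fin_cases k
  · simp [inner_sp]; ring
  · simp [inner_sp]; ring
  · simp [inner_sp]

lemma pau_im (k : Fin 3) (ψ : Sp) : (inner ℂ ψ (pau k ψ)).im = 0 := by
  have h1 : (starRingEnd ℂ) (inner ℂ ψ (pau k ψ)) = inner ℂ ψ (pau k ψ) := by
    rw [inner_conj_symm, pau_symm]
  exact Complex.conj_eq_iff_im.1 h1

lemma pau_re (k : Fin 3) (ψ : Sp) :
    ((inner ℂ ψ (pau k ψ)).re : ℂ) = inner ℂ ψ (pau k ψ) := by
  apply Complex.ext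
  · simp
  · simp [pau_im]

/-- Fierz identity -/
lemma fierz (ψ : Sp) :
    ∑ k, (inner ℂ ψ (pau k ψ)) • pau k ψ = ((‖ψ‖ ^ 2 : ℝ) : ℂ) • ψ := by
  rw [norm_sq_spc]
  ext i
  fin_cases i
  · simp only [Fin.sum_univ_three, inner_sp, Fin.zero_eta, PiLp.add_apply, PiLp.smul_apply,
      smul_eq_mul, pau0_0, pau0_1, pau1_0, pau1_1, pau2_0, pau2_1]
    linear_combination ((starRingEnd ℂ) (ψ 0) * ψ 1 * ψ 1 - (starRingEnd ℂ) (ψ 1) * ψ 0 * ψ 1) *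
      Complex.I_sq
  · simp only [Fin.sum_univ_three, inner_sp, Fin.mk_one, PiLp.add_apply, PiLp.smul_apply,
      smul_eq_mul, pau0_0, pau0_1, pau1_0, pau1_1, pau2_0, pau2_1]
    linear_combination (-(starRingEnd ℂ) (ψ 0) * ψ 1 * ψ 0 + (starRingEnd ℂ) (ψ 1) * ψ 0 * ψ 0) *
      Complex.I_sq

/-- the spin vector -/
def pv (ψ : Sp) (k : Fin 3) : ℝ := (inner ℂ ψ (pau k ψ)).re

lemma fierz' (ψ : Sp) : ∑ k, (pv ψ k : ℂ) • pau k ψ = ((‖ψ‖ ^ 2 : ℝ) : ℂ) • ψ := by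
  rw [← fierz]
  refine Finset.sum_congr rfl fun k _ => ?_
  rw [pv, pau_re]

lemma pv_sq (ψ : Sp) : ∑ k, pv ψ k ^ 2 = ‖ψ‖ ^ 4 := by
  have h := congrArg (fun φ => (inner ℂ ψ φ : ℂ)) (fierz' ψ)
  simp only [inner_sum, inner_smul_right] at h
  have h2 : (∑ k, (pv ψ k : ℂ) * inner ℂ ψ (pau k ψ)) = ((∑ k, pv ψ k ^ 2 : ℝ) : ℂ) := by
    push_cast
    refine Finset.sum_congr rfl fun k _ => ?_
    rw [← pau_re, pv]
    ring
  rw [h2, inner_self_eq_norm_sq_to_K] at h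
  have h3 : ((∑ k, pv ψ k ^ 2 : ℝ) : ℂ) = ((‖ψ‖ ^ 4 : ℝ) : ℂ) := by
    rw [h]
    push_cast
    simp
    ring
  exact_mod_cast h3

lemma len_nonneg (v : Fin 3 → ℝ) : 0 ≤ len v := Real.sqrt_nonneg _

lemma len_sq (v : Fin 3 → ℝ) : len v ^ 2 = ∑ k, v k ^ 2 :=
  Real.sq_sqrt (Finset.sum_nonneg fun k _ => sq_nonneg _)

lemma dot_le (v w : Fin 3 → ℝ) : ∑ k, v k * w k ≤ len v * len w := by
  have h := Finset.sum_mul_sq_le_sq_mul_sq Finset.univ v w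
  rw [← len_sq, ← len_sq] at h
  have h2 : (∑ k, v k * w k) ^ 2 ≤ (len v * len w) ^ 2 := by
    rw [mul_pow]; exact h
  exact le_of_sq_le_sq h2 (mul_nonneg (len_nonneg v) (len_nonneg w))
where
  le_of_sq_le_sq {a b : ℝ} (h : a ^ 2 ≤ b ^ 2) (hb : 0 ≤ b) : a ≤ b := by
    exact le_trans (le_abs_self a) (by
      have := Real.sqrt_le_sqrt h
      rwa [Real.sqrt_sq_eq_abs, Real.sqrt_sq hb] at this)

lemma len_pv (ψ : Sp) : len (pv ψ) = ‖ψ‖ ^ 2 := by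
  rw [len, pv_sq, show ‖ψ‖ ^ 4 = (‖ψ‖ ^ 2) ^ 2 by ring, Real.sqrt_sq (by positivity)]

/-- `n · p ≤ |n| |ψ|²` -/
lemma dot_pv_le (n : Fin 3 → ℝ) (ψ : Sp) : ∑ k, n k * pv ψ k ≤ len n * ‖ψ‖ ^ 2 := by
  have := dot_le n (pv ψ)
  rwa [len_pv] at this

/-- the matrices `σ` are isometries -/
lemma norm_sig (a : Fin 4) (ψ : Sp) : ‖sig a ψ‖ = ‖ψ‖ := by
  have h : ‖sig a ψ‖ ^ 2 = ‖ψ‖ ^ 2 := by
    rw [norm_sq_sp, norm_sq_sp]
    fin_cases a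
    · simp [sig, opM_apply, sigM, Fin.sum_univ_two]
    · simp [sig, opM_apply, sigM, pauM, Fin.sum_univ_two]
      ring
    · simp [sig, opM_apply, sigM, pauM, Fin.sum_univ_two]
      ring
    · simp [sig, opM_apply, sigM, pauM, Fin.sum_univ_two]
  have := congrArg Real.sqrt h
  rwa [Real.sqrt_sq (norm_nonneg _), Real.sqrt_sq (norm_nonneg _)] at this

end Vale.Agent.P247.H558
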